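import Mathlib.Analysis.SpecialFunctions.ImproperIntegrals
import Mathlib.MeasureTheory.Integral.IntegralEqImproper
import Mathlib.MeasureTheory.Integral.Prod
import Mathlib.Analysis.Real.Pi.Bounds
import Mathlib.Tactic

/-!
# P249: the cosine formula for absolute moments

`E |S| ^ q` is a multiple of `∫ (1 - E cos (t S)) t ^ (-1 - q) dt` for `0 < q < 2`.
-/

set_option linter.all false

open MeasureTheory Set Filter
open scoped ENNReal Topology

namespace Vale.Agent.P249.H73

/-- `min (2, B t ^ r) t ^ (-1 - q)` is integrable on `(0, ∞)` for `0 < q < r`. -/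
theorem integrableOn_min {q r B : ℝ} (hq : 0 < q) (hqr : q < r) (hB : 0 ≤ B) :
    IntegrableOn (fun t : ℝ => min 2 (B * t ^ r) * t ^ (-1 - q)) (Ioi 0) := by
  have hmeas : Measurable (fun t : ℝ => min 2 (B * t ^ r) * t ^ (-1 - q)) := by
    fun_prop
  have hsplit : Ioi (0 : ℝ) = Ioc 0 1 ∪ Ioi 1 := (Ioc_union_Ioi_eq_Ioi zero_le_one).symm
  rw [hsplit]
  refine IntegrableOn.union ?_ ?_
  · have h1 : IntegrableOn (fun t : ℝ => B * t ^ (r - 1 - q)) (Ioc 0 1) :=
      ((intervalIntegral.intervalIntegrable_rpow' (a := 0) (b := 1)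
        (show -1 < r - 1 - q by linarith)).1).const_mul B
    refine Integrable.mono' h1 hmeas.aestronglyMeasurable ?_
    refine (ae_restrict_iff' measurableSet_Ioc).2 (Eventually.of_forall fun t ht => ?_)
    have ht0 : 0 < t := ht.1
    rw [Real.norm_eq_abs, abs_of_nonneg (by positivity)]
    calc min 2 (B * t ^ r) * t ^ (-1 - q) ≤ (B * t ^ r) * t ^ (-1 - q) :=
          mul_le_mul_of_nonneg_right (min_le_right _ _) (by positivity)
      _ = B * t ^ (r - 1 - q) := by
          rw [mul_assoc, ← Real.rpow_add ht0]; congr 2; ring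
  · have h1 : IntegrableOn (fun t : ℝ => 2 * t ^ (-1 - q)) (Ioi 1) :=
      (integrableOn_Ioi_rpow_of_lt (by linarith) one_pos).const_mul 2
    refine Integrable.mono' h1 hmeas.aestronglyMeasurable ?_
    refine (ae_restrict_iff' measurableSet_Ioi).2 (Eventually.of_forall fun t ht => ?_)
    have ht0 : 0 < t := lt_trans one_pos ht
    rw [Real.norm_eq_abs, abs_of_nonneg (by positivity)]
    exact mul_le_mul_of_nonneg_right (min_le_left _ _) (by positivity)

/-- Comparison with `min (2, B t ^ r) t ^ (-1 - q)`. -/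
theorem integrableOn_of_le {q r B : ℝ} (hq : 0 < q) (hqr : q < r) (hB : 0 ≤ B) {f : ℝ → ℝ}
    (hf : AEStronglyMeasurable f (volume.restrict (Ioi 0)))
    (h : ∀ t, 0 < t → |f t| ≤ min 2 (B * t ^ r)) :
    IntegrableOn (fun t : ℝ => f t * t ^ (-1 - q)) (Ioi 0) := by
  refine Integrable.mono' (integrableOn_min hq hqr hB) ?_ ?_
  · exact hf.mul (by
      have : Measurable (fun t : ℝ => t ^ (-1 - q)) := by fun_prop
      exact this.aestronglyMeasurable)
  · refine (ae_restrict_iff' measurableSet_Ioi).2 (Eventually.of_forall fun t ht => ?_)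
    have ht0 : 0 < t := ht
    rw [Real.norm_eq_abs, abs_mul, abs_of_nonneg (show 0 ≤ t ^ (-1 - q) by positivity)]
    exact mul_le_mul_of_nonneg_right (h t ht0) (by positivity)

theorem one_sub_cos_le (u t : ℝ) (ht : 0 < t) :
    |1 - Real.cos (t * u)| ≤ min 2 (u ^ 2 * t ^ (2 : ℝ)) := by
  rw [abs_of_nonneg (by linarith [Real.cos_le_one (t * u)]), Real.rpow_two]
  refine le_min (by linarith [Real.neg_one_le_cos (t * u)]) ?_
  have := Real.one_sub_sq_div_two_le_cos (x := t * u)
  nlinarith [sq_nonneg (t * u)]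

theorem integrableOn_cos {q : ℝ} (hq0 : 0 < q) (hq2 : q < 2) (u : ℝ) :
    IntegrableOn (fun t : ℝ => (1 - Real.cos (t * u)) * t ^ (-1 - q)) (Ioi 0) := by
  refine integrableOn_of_le hq0 hq2 (sq_nonneg u) ?_ fun t ht => one_sub_cos_le u t ht
  have : Measurable (fun t : ℝ => 1 - Real.cos (t * u)) := by fun_prop
  exact this.aestronglyMeasurable

/-- The constant of the cosine formula. -/
noncomputable def Kr (q : ℝ) : ℝ := ∫ t in Ioi (0 : ℝ), (1 - Real.cos t) * t ^ (-1 - q)

/-- An integral over `(0, ∞)` of a nonnegative function which is bounded below on `(1, 2]`. -/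
theorem integral_pos_of {f : ℝ → ℝ} {c : ℝ} (hc : 0 < c) (hf : IntegrableOn f (Ioi 0))
    (h0 : ∀ t, 0 < t → 0 ≤ f t) (h1 : ∀ t, 1 < t → t ≤ 2 → c ≤ f t) :
    0 < ∫ t in Ioi (0 : ℝ), f t := by
  have hsub : Ioc (1 : ℝ) 2 ⊆ Ioi 0 := fun t ht => lt_trans one_pos ht.1
  have h2 : ∫ t in Ioc (1 : ℝ) 2, c ≤ ∫ t in Ioc (1 : ℝ) 2, f t := by
    refine setIntegral_mono_on (integrableOn_const (by simp)) (hf.mono_set hsub)
      measurableSet_Ioc fun t ht => h1 t ht.1 ht.2
  have h3 : ∫ t in Ioc (1 : ℝ) 2, f t ≤ ∫ t in Ioi (0 : ℝ), f t := by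
    refine setIntegral_mono_set hf ?_ (HasSubset.Subset.eventuallyLE hsub)
    exact (ae_restrict_iff' measurableSet_Ioi).2 (Eventually.of_forall fun t ht => h0 t ht)
  have h4 : ∫ t in Ioc (1 : ℝ) 2, c = c := by
    simp; norm_num
  linarith

theorem Kr_pos {q : ℝ} (hq0 : 0 < q) (hq2 : q < 2) : 0 < Kr q := by
  have hint := integrableOn_cos hq0 hq2 1
  simp only [mul_one] at hint
  have h4 : 0 < (4 : ℝ) ^ (-1 - q) := by positivity
  have hcos : Real.cos 1 < 1 := by
    have := Real.cos_one_le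
    linarith
  refine integral_pos_of (c := (1 - Real.cos 1) * 4 ^ (-1 - q))
    (mul_pos (by linarith) h4) hint ?_ ?_
  · intro t ht
    have := Real.cos_le_one t
    have h5 : 0 ≤ t ^ (-1 - q) := by positivity
    exact mul_nonneg (by linarith) h5
  · intro t h1 h2
    have h6 : Real.cos t ≤ Real.cos 1 :=
      Real.cos_le_cos_of_nonneg_of_le_pi zero_le_one (by linarith [Real.pi_gt_three]) h1.le
    have h7 : (4 : ℝ) ^ (-1 - q) ≤ t ^ (-1 - q) :=
      Real.rpow_le_rpow_of_nonpos (by linarith) (by linarith) (by linarith)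
    exact mul_le_mul (by linarith) h7 h4.le (by linarith)

/-- Scaling. -/
theorem integral_cos_scale {q : ℝ} (hq0 : 0 < q) (u : ℝ) :
    ∫ t in Ioi (0 : ℝ), (1 - Real.cos (t * u)) * t ^ (-1 - q) = |u| ^ q * Kr q := by
  rcases eq_or_ne u 0 with rfl | hu
  · simp [Real.zero_rpow hq0.ne']
  have hu' : 0 < |u| := abs_pos.2 hu
  have h1 : ∀ t : ℝ, Real.cos (t * u) = Real.cos (t * |u|) := by
    intro t
    rcases abs_cases u with ⟨h, -⟩ | ⟨h, -⟩
    · rw [h]
    · rw [h, mul_neg, Real.cos_neg]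
  simp_rw [h1]
  have h2 := integral_comp_mul_right_Ioi (fun s : ℝ => (1 - Real.cos s) * s ^ (-1 - q)) 0 hu'
  rw [zero_mul] at h2
  have h3 : ∫ t in Ioi (0 : ℝ), (1 - Real.cos (t * |u|)) * t ^ (-1 - q) =
      |u| ^ (1 + q) * ∫ t in Ioi (0 : ℝ), (1 - Real.cos (t * |u|)) * (t * |u|) ^ (-1 - q) := by
    rw [← integral_const_mul]
    refine setIntegral_congr_fun measurableSet_Ioi fun t ht => ?_
    have ht0 : (0 : ℝ) < t := ht
    rw [Real.mul_rpow ht0.le hu'.le]
    have h4 : |u| ^ (1 + q) * |u| ^ (-1 - q) = 1 := by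
      rw [← Real.rpow_add hu']
      have : 1 + q + (-1 - q) = 0 := by ring
      rw [this, Real.rpow_zero]
    calc (1 - Real.cos (t * |u|)) * t ^ (-1 - q)
        = (1 - Real.cos (t * |u|)) * t ^ (-1 - q) * (|u| ^ (1 + q) * |u| ^ (-1 - q)) := by
          rw [h4, mul_one]
      _ = _ := by ring
  rw [h3, h2, smul_eq_mul, ← mul_assoc]
  congr 1
  rw [← Real.rpow_neg_one, ← Real.rpow_add hu']
  congr 1
  ring

theorem lintegral_cos_scale {q : ℝ} (hq0 : 0 < q) (hq2 : q < 2) (u : ℝ) :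
    ∫⁻ t in Ioi (0 : ℝ), ENNReal.ofReal ((1 - Real.cos (t * u)) * t ^ (-1 - q)) =
      ENNReal.ofReal (|u| ^ q * Kr q) := by
  rw [← ofReal_integral_eq_lintegral_ofReal (integrableOn_cos hq0 hq2 u), integral_cos_scale hq0 u]
  refine (ae_restrict_iff' measurableSet_Ioi).2 (Eventually.of_forall fun t ht => ?_)
  have ht0 : (0 : ℝ) < t := ht
  have := Real.cos_le_one (t * u)
  exact mul_nonneg (by linarith) (by positivity)

section

variable {Ω : Type*} [MeasurableSpace Ω] (P : Measure Ω) [IsProbabilityMeasure P]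

/-- The characteristic function of a symmetric variable. -/
noncomputable def cf (S : Ω → ℝ) (t : ℝ) : ℝ := ∫ ω, Real.cos (t * S ω) ∂P

theorem integrable_cos {S : Ω → ℝ} (hS : Measurable S) (t : ℝ) :
    Integrable (fun ω => Real.cos (t * S ω)) P := by
  refine Integrable.of_bound (C := 1) ?_ (Eventually.of_forall fun ω => ?_)
  · have : Measurable (fun ω => Real.cos (t * S ω)) := by fun_prop
    exact this.aestronglyMeasurable
  · rw [Real.norm_eq_abs]; exact Real.abs_cos_le_one _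

theorem abs_cf_le (S : Ω → ℝ) (t : ℝ) : |cf P S t| ≤ 1 := by
  have h := norm_integral_le_of_norm_le_const (μ := P) (f := fun ω => Real.cos (t * S ω)) (C := 1)
    (Eventually.of_forall fun ω => by rw [Real.norm_eq_abs]; exact Real.abs_cos_le_one _)
  simpa [cf, Real.norm_eq_abs] using h

theorem measurable_cf {S : Ω → ℝ} (hS : Measurable S) : Measurable (cf P S) := by
  have h : StronglyMeasurable (fun x : ℝ × Ω => Real.cos (x.1 * S x.2)) := by
    have : Measurable (fun x : ℝ × Ω => Real.cos (x.1 * S x.2)) := by fun_prop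
    exact this.stronglyMeasurable
  exact (h.integral_prod_right (ν := P)).measurable

theorem lintegral_abs_rpow {S : Ω → ℝ} (hS : Measurable S) {q : ℝ} (hq0 : 0 < q) (hq2 : q < 2) :
    ∫⁻ ω, ENNReal.ofReal (|S ω| ^ q * Kr q) ∂P =
      ∫⁻ t in Ioi (0 : ℝ), ENNReal.ofReal ((1 - cf P S t) * t ^ (-1 - q)) := by
  simp_rw [← lintegral_cos_scale hq0 hq2]
  rw [lintegral_lintegral_swap]
  · refine setLIntegral_congr_fun measurableSet_Ioi fun t ht => ?_
    have ht0 : (0 : ℝ) < t := ht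
    have hi : Integrable (fun ω => (1 - Real.cos (t * S ω)) * t ^ (-1 - q)) P :=
      ((integrable_const (1 : ℝ)).sub (integrable_cos P hS t)).mul_const _
    rw [← ofReal_integral_eq_lintegral_ofReal hi]
    · congr 1
      rw [integral_mul_const, integral_sub (integrable_const _) (integrable_cos P hS t)]
      simp [cf]
    · refine Eventually.of_forall fun ω => ?_
      have := Real.cos_le_one (t * S ω)
      exact mul_nonneg (by linarith) (by positivity)
  · have : Measurable (fun x : Ω × ℝ =>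
        ENNReal.ofReal ((1 - Real.cos (x.2 * S x.1)) * x.2 ^ (-1 - q))) := by fun_prop
    exact this.aemeasurable

/-- The limiting integral. -/
noncomputable def Jr (κ p q : ℝ) : ℝ :=
  ∫ t in Ioi (0 : ℝ), (1 - Real.exp (-(κ * t ^ p))) * t ^ (-1 - q)

theorem integrableOn_exp {κ p q : ℝ} (hκ : 0 < κ) (hq0 : 0 < q) (hqp : q < p) :
    IntegrableOn (fun t : ℝ => (1 - Real.exp (-(κ * t ^ p))) * t ^ (-1 - q)) (Ioi 0) := by
  refine integrableOn_of_le hq0 hqp hκ.le ?_ fun t ht => ?_
  · have : Measurable (fun t : ℝ => 1 - Real.exp (-(κ * t ^ p))) := by fun_prop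
    exact this.aestronglyMeasurable
  · have h1 : 0 ≤ κ * t ^ p := by positivity
    have h2 : Real.exp (-(κ * t ^ p)) ≤ 1 := Real.exp_le_one_iff.2 (by linarith)
    rw [abs_of_nonneg (by linarith)]
    have h3 := Real.exp_pos (-(κ * t ^ p))
    have h4 := Real.one_sub_le_exp_neg (κ * t ^ p)
    exact le_min (by linarith) (by linarith)

theorem Jr_pos {κ p q : ℝ} (hκ : 0 < κ) (hq0 : 0 < q) (hqp : q < p) : 0 < Jr κ p q := by
  have h4 : 0 < (4 : ℝ) ^ (-1 - q) := by positivity
  have hp : 0 < p := hq0.trans hqp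
  have he : Real.exp (-κ) < 1 := by
    have := Real.exp_lt_exp.2 (show -κ < 0 by linarith)
    rwa [Real.exp_zero] at this
  refine integral_pos_of (c := (1 - Real.exp (-κ)) * 4 ^ (-1 - q)) (mul_pos (by linarith) h4)
    (integrableOn_exp hκ hq0 hqp) ?_ ?_
  · intro t ht
    have h1 : 0 ≤ κ * t ^ p := by positivity
    have h2 : Real.exp (-(κ * t ^ p)) ≤ 1 := Real.exp_le_one_iff.2 (by linarith)
    exact mul_nonneg (by linarith) (by positivity)
  · intro t h1 h2
    have h5 : 1 ≤ t ^ p := Real.one_le_rpow h1.le hp.le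
    have h6 : Real.exp (-(κ * t ^ p)) ≤ Real.exp (-κ) := by
      apply Real.exp_le_exp.2
      nlinarith
    have h7 : (4 : ℝ) ^ (-1 - q) ≤ t ^ (-1 - q) :=
      Real.rpow_le_rpow_of_nonpos (by linarith) (by linarith) (by linarith)
    exact mul_le_mul (by linarith) h7 h4.le (by linarith)

/-- The `q`-th absolute moment of a variable whose characteristic function is close to
`exp (-κ |t| ^ p)`. -/
theorem moment_close {S : Ω → ℝ} (hS : Measurable S) {κ p q r B : ℝ} (hκ : 0 < κ) (hq0 : 0 < q)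
    (hq2 : q < 2) (hqp : q < p) (hqr : q < r) (hB : 0 ≤ B)
    (h : ∀ t, 0 < t → |cf P S t - Real.exp (-(κ * t ^ p))| ≤ B * t ^ r) :
    Integrable (fun ω => |S ω| ^ q) P ∧
      |(∫ ω, |S ω| ^ q ∂P) * Kr q - Jr κ p q| ≤
        ∫ t in Ioi (0 : ℝ), min 2 (B * t ^ r) * t ^ (-1 - q) := by
  have hK := Kr_pos hq0 hq2
  have hexp : ∀ t : ℝ, 0 < t → Real.exp (-(κ * t ^ p)) ≤ 1 := fun t ht => by
    have h1 : 0 ≤ κ * t ^ p := by positivity
    exact Real.exp_le_one_iff.2 (by linarith)
  have hdiff : ∀ t, 0 < t → |Real.exp (-(κ * t ^ p)) - cf P S t| ≤ min 2 (B * t ^ r) := by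
    intro t ht
    rw [abs_sub_comm]
    refine le_min ?_ (h t ht)
    have h1 := abs_le.1 (abs_cf_le P S t)
    have h2 := hexp t ht
    have h3 := Real.exp_pos (-(κ * t ^ p))
    rw [abs_le]
    constructor <;> linarith
  have hmD : AEStronglyMeasurable (fun t : ℝ => Real.exp (-(κ * t ^ p)) - cf P S t)
      (volume.restrict (Ioi 0)) := by
    have h1 : Measurable (fun t : ℝ => Real.exp (-(κ * t ^ p))) := by fun_prop
    exact (h1.sub (measurable_cf P hS)).aestronglyMeasurable
  have hD : IntegrableOn (fun t : ℝ => (Real.exp (-(κ * t ^ p)) - cf P S t) * t ^ (-1 - q))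
      (Ioi 0) := integrableOn_of_le hq0 hqr hB hmD hdiff
  have hE := integrableOn_exp hκ hq0 hqp
  have hF : IntegrableOn (fun t : ℝ => (1 - cf P S t) * t ^ (-1 - q)) (Ioi 0) := by
    have := hE.add hD
    refine this.congr_fun (fun t _ => ?_) measurableSet_Ioi
    simp only [Pi.add_apply]
    ring
  have hFnn : 0 ≤ᵐ[volume.restrict (Ioi 0)] fun t : ℝ => (1 - cf P S t) * t ^ (-1 - q) := by
    refine (ae_restrict_iff' measurableSet_Ioi).2 (Eventually.of_forall fun t ht => ?_)
    have ht0 : (0 : ℝ) < t := ht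
    have h1 := abs_le.1 (abs_cf_le P S t)
    exact mul_nonneg (by linarith) (by positivity)
  have hkey := lintegral_abs_rpow P hS hq0 hq2
  rw [← ofReal_integral_eq_lintegral_ofReal hF hFnn] at hkey
  have hmeas : Measurable (fun ω => |S ω| ^ q * Kr q) := by fun_prop
  have hnn : ∀ ω, 0 ≤ |S ω| ^ q * Kr q := fun ω => by positivity
  have hint : Integrable (fun ω => |S ω| ^ q * Kr q) P := by
    refine ⟨hmeas.aestronglyMeasurable, ?_⟩
    rw [hasFiniteIntegral_iff_ofReal (Eventually.of_forall hnn), hkey]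
    exact ENNReal.ofReal_lt_top
  have hint2 : Integrable (fun ω => |S ω| ^ q) P := by
    have := hint.mul_const (Kr q)⁻¹
    refine this.congr (Eventually.of_forall fun ω => ?_)
    simp only
    field_simp
  refine ⟨hint2, ?_⟩
  have hval : ∫ ω, |S ω| ^ q * Kr q ∂P = ∫ t in Ioi (0 : ℝ), (1 - cf P S t) * t ^ (-1 - q) := by
    have h1 := ofReal_integral_eq_lintegral_ofReal hint (Eventually.of_forall hnn)
    rw [hkey] at h1
    have h2 : 0 ≤ ∫ ω, |S ω| ^ q * Kr q ∂P := integral_nonneg hnn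
    have h3 : 0 ≤ ∫ t in Ioi (0 : ℝ), (1 - cf P S t) * t ^ (-1 - q) := integral_nonneg_of_ae hFnn
    exact (ENNReal.ofReal_eq_ofReal_iff h2 h3).1 h1
  rw [integral_mul_const] at hval
  rw [hval]
  have h5 : (∫ t in Ioi (0 : ℝ), (1 - cf P S t) * t ^ (-1 - q)) - Jr κ p q =
      ∫ t in Ioi (0 : ℝ), (Real.exp (-(κ * t ^ p)) - cf P S t) * t ^ (-1 - q) := by
    rw [Jr, ← integral_sub hF hE]
    refine setIntegral_congr_fun measurableSet_Ioi fun t _ => ?_
    ring
  rw [h5]
  refine (abs_integral_le_integral_abs).trans ?_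
  refine setIntegral_mono_on hD.abs (integrableOn_min hq0 hqr hB) measurableSet_Ioi fun t ht => ?_
  have ht0 : (0 : ℝ) < t := ht
  rw [abs_mul, abs_of_nonneg (show 0 ≤ t ^ (-1 - q) by positivity)]
  exact mul_le_mul_of_nonneg_right (hdiff t ht0) (by positivity)

end

/-- The error integral tends to zero with `B`. -/
theorem tendsto_min_integral {q r : ℝ} (hq : 0 < q) (hqr : q < r) {B : ℕ → ℝ}
    (hB0 : ∀ n, 0 ≤ B n) (hB1 : ∀ n, B n ≤ B 0) (hB : Tendsto B atTop (𝓝 0)) :
    Tendsto (fun n => ∫ t in Ioi (0 : ℝ), min 2 (B n * t ^ r) * t ^ (-1 - q)) atTop (𝓝 0) := by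
  have h := tendsto_integral_of_dominated_convergence
    (μ := volume.restrict (Ioi (0 : ℝ)))
    (F := fun n t => min 2 (B n * t ^ r) * t ^ (-1 - q)) (f := fun _ => (0 : ℝ))
    (fun t => min 2 (B 0 * t ^ r) * t ^ (-1 - q)) ?_ (integrableOn_min hq hqr (hB0 0)) ?_ ?_
  · simpa using h
  · intro n
    have : Measurable (fun t : ℝ => min 2 (B n * t ^ r) * t ^ (-1 - q)) := by fun_prop
    exact this.aestronglyMeasurable
  · intro n
    refine (ae_restrict_iff' measurableSet_Ioi).2 (Eventually.of_forall fun t ht => ?_)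
    have ht0 : (0 : ℝ) < t := ht
    have h1 := hB0 n
    rw [Real.norm_eq_abs, abs_of_nonneg (by positivity)]
    refine mul_le_mul_of_nonneg_right ?_ (by positivity)
    exact min_le_min le_rfl (mul_le_mul_of_nonneg_right (hB1 n) (by positivity))
  · refine (ae_restrict_iff' measurableSet_Ioi).2 (Eventually.of_forall fun t ht => ?_)
    have h1 : Tendsto (fun n => B n * t ^ r) atTop (𝓝 (0 * t ^ r)) := hB.mul_const _
    have h2 : Tendsto (fun n => min 2 (B n * t ^ r)) atTop (𝓝 (min 2 (0 * t ^ r))) :=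
      tendsto_const_nhds.min h1
    have h3 := h2.mul_const (t ^ (-1 - q))
    simpa using h3

end Vale.Agent.P249.H73
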