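import Vale.Agent.P249.H73.Cos
import Mathlib.MeasureTheory.Integral.Pi
import Mathlib.Analysis.Complex.Trigonometric

/-!
# P249: symmetric laws in the domain of attraction of a stable law
-/

set_option linter.all false

open MeasureTheory Set Filter
open scoped ENNReal Topology BigOperators

namespace Vale.Agent.P249.H73

/-- `0 ≤ exp (-x) - (1 - x) ≤ x ^ 2` for `x ≥ 0`. -/
theorem exp_neg_close {x : ℝ} (hx : 0 ≤ x) : |Real.exp (-x) - (1 - x)| ≤ x ^ 2 := by
  have h1 := Real.one_sub_le_exp_neg x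
  rw [abs_of_nonneg (by linarith)]
  rcases le_or_gt x 1 with h | h
  · have h2 := Real.abs_exp_sub_one_sub_id_le (x := -x) (by rw [abs_neg, abs_of_nonneg hx]; exact h)
    have h3 := (abs_le.1 h2).2
    nlinarith
  · have h2 : Real.exp (-x) ≤ 1 := Real.exp_le_one_iff.2 (by linarith)
    nlinarith

/-- A law whose characteristic function is `exp (-κ |s| ^ p) + O (|s| ^ r)`. -/
def StableLike (p : ℝ) : Prop :=
  ∃ (μ : Measure ℝ) (_ : IsProbabilityMeasure μ) (κ r C : ℝ), 0 < κ ∧ p < r ∧ 0 ≤ C ∧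
    ∀ s : ℝ, |(∫ y, Real.cos (s * y) ∂μ) - Real.exp (-(κ * |s| ^ p))| ≤ C * |s| ^ r

theorem stableLike_two : StableLike 2 := by
  refine ⟨Measure.dirac 1, inferInstance, 1 / 2, 4, 2, by norm_num, by norm_num, by norm_num, ?_⟩
  intro s
  rw [integral_dirac, mul_one]
  have e2 : |s| ^ (2 : ℝ) = s ^ 2 := by rw [Real.rpow_two, sq_abs]
  have e4 : |s| ^ (4 : ℝ) = s ^ 4 := by
    have : (4 : ℝ) = ((4 : ℕ) : ℝ) := by norm_num
    rw [this, Real.rpow_natCast]
    have h : |s| ^ 4 = (|s| ^ 2) ^ 2 := by ring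
    rw [h, sq_abs]; ring
  rw [e2, e4]
  rcases le_or_gt |s| 1 with h | h
  · have h1 := Real.cos_bound h
    have h2 := exp_neg_close (x := 1 / 2 * s ^ 2) (by positivity)
    have h3 : |s| ^ 4 = s ^ 4 := by
      have h : |s| ^ 4 = (|s| ^ 2) ^ 2 := by ring
      rw [h, sq_abs]; ring
    rw [h3] at h1
    have h4 : 0 ≤ s ^ 4 := by positivity
    rw [abs_le] at h1 h2 ⊢
    have h5 : (1 / 2 * s ^ 2) ^ 2 = s ^ 4 / 4 := by ring
    rw [h5] at h2
    constructor <;> linarith [h1.1, h1.2, h2.1, h2.2]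
  · have h1 : 1 ≤ s ^ 2 := by
      rw [← sq_abs]; nlinarith
    have h2 : 1 ≤ s ^ 4 := by nlinarith
    have h3 : Real.exp (-(1 / 2 * s ^ 2)) ≤ 1 := Real.exp_le_one_iff.2 (by linarith)
    have h4 := Real.exp_pos (-(1 / 2 * s ^ 2))
    have h5 := Real.cos_le_one s
    have h6 := Real.neg_one_le_cos s
    rw [abs_le]
    constructor <;> linarith

/-- The Pareto law on `(1, ∞)`. -/
noncomputable def par (p : ℝ) : Measure ℝ :=
  (volume.restrict (Ioi (1 : ℝ))).withDensity fun y => ENNReal.ofReal (p * y ^ (-1 - p))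

theorem par_prob {p : ℝ} (hp : 0 < p) : IsProbabilityMeasure (par p) := by
  constructor
  rw [par, withDensity_apply _ MeasurableSet.univ, Measure.restrict_univ,
    ← ofReal_integral_eq_lintegral_ofReal]
  · rw [integral_const_mul, integral_Ioi_rpow_of_lt (by linarith) one_pos, Real.one_rpow]
    have : p * (-1 / (-1 - p + 1)) = 1 := by
      have : (-1 - p + 1) = -p := by ring
      rw [this]
      field_simp
    rw [this, ENNReal.ofReal_one]
  · exact (integrableOn_Ioi_rpow_of_lt (by linarith) one_pos).const_mul p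
  · refine (ae_restrict_iff' measurableSet_Ioi).2 (Eventually.of_forall fun t ht => ?_)
    have ht0 : (0 : ℝ) < t := lt_trans one_pos ht
    show 0 ≤ p * t ^ (-1 - p)
    positivity

theorem integral_par {p : ℝ} (hp : 0 < p) (f : ℝ → ℝ) :
    ∫ y, f y ∂(par p) = ∫ y in Ioi (1 : ℝ), (p * y ^ (-1 - p)) * f y := by
  rw [par, integral_withDensity_eq_integral_toReal_smul (by fun_prop)
    (Eventually.of_forall fun _ => ENNReal.ofReal_lt_top)]
  refine setIntegral_congr_fun measurableSet_Ioi fun t ht => ?_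
  have ht0 : (0 : ℝ) < t := lt_trans one_pos ht
  show (ENNReal.ofReal (p * t ^ (-1 - p))).toReal • f t = _
  rw [ENNReal.toReal_ofReal (by positivity), smul_eq_mul]

theorem par_cos {p : ℝ} (hp1 : 1 ≤ p) (hp2 : p < 2) (s : ℝ) :
    |(∫ y, Real.cos (s * y) ∂(par p)) - (1 - p * Kr p * |s| ^ p)| ≤ p / (2 - p) * s ^ 2 := by
  have hp0 : 0 < p := by linarith
  have hbase : IntegrableOn (fun y : ℝ => y ^ (-1 - p)) (Ioi 1) :=
    integrableOn_Ioi_rpow_of_lt (by linarith) one_pos
  have h1 : ∫ y in Ioi (1 : ℝ), p * y ^ (-1 - p) = 1 := by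
    rw [integral_const_mul, integral_Ioi_rpow_of_lt (by linarith) one_pos, Real.one_rpow]
    have : (-1 - p + 1) = -p := by ring
    rw [this]
    field_simp
  have hcos := integrableOn_cos hp0 hp2 s
  have hcos1 : IntegrableOn (fun t : ℝ => (1 - Real.cos (t * s)) * t ^ (-1 - p)) (Ioi 1) :=
    hcos.mono_set (Ioi_subset_Ioi zero_le_one)
  have hcos0 : IntegrableOn (fun t : ℝ => (1 - Real.cos (t * s)) * t ^ (-1 - p)) (Ioc 0 1) :=
    hcos.mono_set Ioc_subset_Ioi_self
  have h2 : ∫ y, Real.cos (s * y) ∂(par p) =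
      1 - p * ∫ t in Ioi (1 : ℝ), (1 - Real.cos (t * s)) * t ^ (-1 - p) := by
    have h1' : 1 - p * ∫ t in Ioi (1 : ℝ), (1 - Real.cos (t * s)) * t ^ (-1 - p) =
        (∫ y in Ioi (1 : ℝ), p * y ^ (-1 - p)) -
          ∫ t in Ioi (1 : ℝ), p * ((1 - Real.cos (t * s)) * t ^ (-1 - p)) := by
      rw [h1, integral_const_mul]
    rw [integral_par hp0, h1', ← integral_sub (hbase.const_mul p) (hcos1.const_mul p)]
    refine setIntegral_congr_fun measurableSet_Ioi fun t _ => ?_
    show p * t ^ (-1 - p) * Real.cos (s * t) = p * t ^ (-1 - p) -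
      p * ((1 - Real.cos (t * s)) * t ^ (-1 - p))
    rw [mul_comm s t]
    ring
  have h3 : ∫ t in Ioi (0 : ℝ), (1 - Real.cos (t * s)) * t ^ (-1 - p) =
      (∫ t in Ioc (0 : ℝ) 1, (1 - Real.cos (t * s)) * t ^ (-1 - p)) +
      ∫ t in Ioi (1 : ℝ), (1 - Real.cos (t * s)) * t ^ (-1 - p) := by
    rw [← setIntegral_union (Ioc_disjoint_Ioi le_rfl) measurableSet_Ioi hcos0 hcos1,
      Ioc_union_Ioi_eq_Ioi zero_le_one]
  rw [integral_cos_scale hp0] at h3
  have h4 : 0 ≤ ∫ t in Ioc (0 : ℝ) 1, (1 - Real.cos (t * s)) * t ^ (-1 - p) := by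
    refine setIntegral_nonneg measurableSet_Ioc fun t ht => ?_
    have ht0 : (0 : ℝ) < t := ht.1
    have := Real.cos_le_one (t * s)
    exact mul_nonneg (by linarith) (by positivity)
  have h5 : ∫ t in Ioc (0 : ℝ) 1, (1 - Real.cos (t * s)) * t ^ (-1 - p) ≤
      s ^ 2 * (1 / (2 - p)) := by
    have hint : IntegrableOn (fun t : ℝ => s ^ 2 * t ^ (1 - p)) (Ioc 0 1) :=
      ((intervalIntegral.intervalIntegrable_rpow' (a := 0) (b := 1)
        (show -1 < 1 - p by linarith)).1).const_mul _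
    have h6 : ∫ t in Ioc (0 : ℝ) 1, (1 - Real.cos (t * s)) * t ^ (-1 - p) ≤
        ∫ t in Ioc (0 : ℝ) 1, s ^ 2 * t ^ (1 - p) := by
      refine setIntegral_mono_on hcos0 hint measurableSet_Ioc fun t ht => ?_
      have ht0 : (0 : ℝ) < t := ht.1
      have h7 := (le_abs_self _).trans ((one_sub_cos_le s t ht0).trans (min_le_right _ _))
      calc (1 - Real.cos (t * s)) * t ^ (-1 - p) ≤ (s ^ 2 * t ^ (2 : ℝ)) * t ^ (-1 - p) :=
            mul_le_mul_of_nonneg_right h7 (by positivity)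
        _ = s ^ 2 * t ^ (1 - p) := by
            rw [mul_assoc, ← Real.rpow_add ht0]; congr 2; ring
    refine h6.trans (le_of_eq ?_)
    rw [integral_const_mul]
    congr 1
    rw [← intervalIntegral.integral_of_le zero_le_one, integral_rpow (Or.inl (by linarith)),
      Real.one_rpow, Real.zero_rpow (by linarith)]
    congr 1 <;> ring
  rw [h2]
  have e : (1 - p * ∫ t in Ioi (1 : ℝ), (1 - Real.cos (t * s)) * t ^ (-1 - p)) -
      (1 - p * Kr p * |s| ^ p) =
      p * ∫ t in Ioc (0 : ℝ) 1, (1 - Real.cos (t * s)) * t ^ (-1 - p) := by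
    have : |s| ^ p * Kr p = Kr p * |s| ^ p := mul_comm _ _
    linear_combination p * h3
  rw [e, abs_of_nonneg (by positivity)]
  calc p * ∫ t in Ioc (0 : ℝ) 1, (1 - Real.cos (t * s)) * t ^ (-1 - p)
      ≤ p * (s ^ 2 * (1 / (2 - p))) := mul_le_mul_of_nonneg_left h5 hp0.le
    _ = p / (2 - p) * s ^ 2 := by ring

theorem stableLike_lt {p : ℝ} (hp1 : 1 ≤ p) (hp2 : p < 2) : StableLike p := by
  have hp0 : 0 < p := by linarith
  have hK := Kr_pos hp0 hp2
  have hprob := par_prob hp0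
  have h2p : 0 < 2 - p := by linarith
  refine ⟨par p, hprob, p * Kr p, 2, 2 + p / (2 - p) + (p * Kr p) ^ 2, by positivity, hp2,
    by positivity, fun s => ?_⟩
  have e2 : |s| ^ (2 : ℝ) = s ^ 2 := by rw [Real.rpow_two, sq_abs]
  rw [e2]
  have hs2 : 0 ≤ s ^ 2 := sq_nonneg s
  have hc : 0 ≤ p / (2 - p) := by positivity
  have h1 := par_cos hp1 hp2 s
  have hx : 0 ≤ p * Kr p * |s| ^ p := by positivity
  rcases le_or_gt |s| 1 with h | h
  · have h2 := exp_neg_close hx
    have h3 : (p * Kr p * |s| ^ p) ^ 2 ≤ (p * Kr p) ^ 2 * s ^ 2 := by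
      rw [mul_pow]
      refine mul_le_mul_of_nonneg_left ?_ (by positivity)
      have h4 : |s| ^ p ≤ |s| := by
        rcases eq_or_lt_of_le (abs_nonneg s) with h0 | h0
        · rw [← h0, Real.zero_rpow hp0.ne']
        · calc |s| ^ p ≤ |s| ^ (1 : ℝ) := Real.rpow_le_rpow_of_exponent_ge h0 h hp1
            _ = |s| := Real.rpow_one _
      have h5 : 0 ≤ |s| ^ p := by positivity
      rw [← sq_abs s]
      exact pow_le_pow_left₀ h5 h4 2
    rw [abs_le] at h1 h2 ⊢
    constructor <;> nlinarith [h1.1, h1.2, h2.1, h2.2, mul_nonneg hc hs2]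
  · have h1 : 1 ≤ s ^ 2 := by
      rw [← sq_abs]; nlinarith
    have h3 : Real.exp (-(p * Kr p * |s| ^ p)) ≤ 1 := Real.exp_le_one_iff.2 (by linarith)
    have h4 := Real.exp_pos (-(p * Kr p * |s| ^ p))
    have h5 : |∫ y, Real.cos (s * y) ∂(par p)| ≤ 1 := by
      have h := norm_integral_le_of_norm_le_const (μ := par p) (f := fun y => Real.cos (s * y))
        (C := 1) (Eventually.of_forall fun ω => by
          rw [Real.norm_eq_abs]; exact Real.abs_cos_le_one _)
      simpa [Real.norm_eq_abs] using h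
    rw [abs_le] at h5 ⊢
    have h6 : 2 ≤ (2 + p / (2 - p) + (p * Kr p) ^ 2) * s ^ 2 := by
      have : 0 ≤ (p * Kr p) ^ 2 := by positivity
      nlinarith
    constructor <;> linarith [h5.1, h5.2]

theorem stableLike {p : ℝ} (hp1 : 1 ≤ p) (hp2 : p ≤ 2) : StableLike p := by
  rcases eq_or_lt_of_le hp2 with h | h
  · rw [h]; exact stableLike_two
  · exact stableLike_lt hp1 h

/-! ### Symmetrisation and products -/

/-- Symmetrisation of a law. -/
noncomputable def sym (μ : Measure ℝ) : Measure ℝ := (2⁻¹ : ℝ≥0∞) • (μ + μ.map (fun x => -x))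

instance sym_prob (μ : Measure ℝ) [IsProbabilityMeasure μ] : IsProbabilityMeasure (sym μ) := by
  constructor
  have h : (μ.map (fun x : ℝ => -x)) univ = 1 := by
    rw [Measure.map_apply measurable_neg MeasurableSet.univ, preimage_univ, measure_univ]
  simp only [sym, Measure.smul_apply, Measure.add_apply, measure_univ, h, smul_eq_mul]
  rw [one_add_one_eq_two, ENNReal.inv_mul_cancel (by norm_num) (by norm_num)]

theorem norm_cexp_I (x : ℝ) : ‖Complex.exp ((x : ℂ) * Complex.I)‖ = 1 :=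
  Complex.norm_exp_ofReal_mul_I x

theorem cexp_sym (μ : Measure ℝ) [IsProbabilityMeasure μ] (s : ℝ) :
    ∫ y, Complex.exp (((s * y : ℝ) : ℂ) * Complex.I) ∂(sym μ) =
      ((∫ y, Real.cos (s * y) ∂μ : ℝ) : ℂ) := by
  have hm : Measurable (fun y : ℝ => Complex.exp (((s * y : ℝ) : ℂ) * Complex.I)) := by fun_prop
  have hi : ∀ (m : Measure ℝ) [IsFiniteMeasure m],
      Integrable (fun y : ℝ => Complex.exp (((s * y : ℝ) : ℂ) * Complex.I)) m := by
    intro m _
    exact Integrable.of_bound hm.aestronglyMeasurable 1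
      (Eventually.of_forall fun y => (norm_cexp_I _).le)
  haveI : IsFiniteMeasure (μ.map (fun x : ℝ => -x)) := Measure.isFiniteMeasure_map μ _
  rw [sym, integral_smul_measure, integral_add_measure (hi _) (hi _),
    integral_map measurable_neg.aemeasurable hm.aestronglyMeasurable]
  have hi2 : Integrable (fun y : ℝ => Complex.exp (((s * -y : ℝ) : ℂ) * Complex.I)) μ := by
    have hm2 : Measurable (fun y : ℝ => Complex.exp (((s * -y : ℝ) : ℂ) * Complex.I)) := by
      fun_prop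
    exact Integrable.of_bound hm2.aestronglyMeasurable 1
      (Eventually.of_forall fun y => (norm_cexp_I _).le)
  rw [← integral_add (hi μ) hi2]
  have h1 : ∀ y : ℝ, Complex.exp (((s * y : ℝ) : ℂ) * Complex.I) +
      Complex.exp (((s * -y : ℝ) : ℂ) * Complex.I) = ((2 * Real.cos (s * y) : ℝ) : ℂ) := by
    intro y
    have : ((s * -y : ℝ) : ℂ) * Complex.I = -((s * y : ℝ) : ℂ) * Complex.I := by
      push_cast; ring
    rw [this, ← Complex.two_cos]
    push_cast
    ring
  simp_rw [h1]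
  rw [integral_complex_ofReal, integral_const_mul]
  have h2 : (2⁻¹ : ℝ≥0∞).toReal = 2⁻¹ := by simp
  rw [h2]
  push_cast
  rw [Complex.real_smul]
  push_cast
  ring

/-- The characteristic function of a linear combination of independent symmetric variables. -/
theorem cf_pi {ι : Type*} [Fintype ι] (μ : Measure ℝ) [IsProbabilityMeasure μ] (b : ι → ℝ)
    (t : ℝ) :
    cf (Measure.pi fun _ : ι => sym μ) (fun y => ∑ j, b j * y j) t =
      ∏ j, ∫ y, Real.cos (t * b j * y) ∂μ := by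
  have h1 : (∫ y : ι → ℝ, Complex.exp (((t * ∑ j, b j * y j : ℝ) : ℂ) * Complex.I)
      ∂(Measure.pi fun _ : ι => sym μ)) =
      ∏ j, ∫ y, Complex.exp (((t * b j * y : ℝ) : ℂ) * Complex.I) ∂(sym μ) := by
    rw [← integral_fintype_prod_eq_prod (μ := fun _ : ι => sym μ)
      (fun j (y : ℝ) => Complex.exp (((t * b j * y : ℝ) : ℂ) * Complex.I))]
    refine integral_congr_ae (Eventually.of_forall fun y => ?_)
    show Complex.exp (((t * ∑ j, b j * y j : ℝ) : ℂ) * Complex.I) =
      ∏ j, Complex.exp (((t * b j * y j : ℝ) : ℂ) * Complex.I)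
    rw [← Complex.exp_sum]
    congr 1
    push_cast
    rw [Finset.mul_sum, Finset.sum_mul]
    refine Finset.sum_congr rfl fun j _ => ?_
    ring
  have hm : Measurable (fun y : ι → ℝ =>
      Complex.exp (((t * ∑ j, b j * y j : ℝ) : ℂ) * Complex.I)) := by fun_prop
  have hi : Integrable (fun y : ι → ℝ =>
      Complex.exp (((t * ∑ j, b j * y j : ℝ) : ℂ) * Complex.I))
      (Measure.pi fun _ : ι => sym μ) :=
    Integrable.of_bound hm.aestronglyMeasurable 1
      (Eventually.of_forall fun y => (norm_cexp_I _).le)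
  have h2 := integral_re hi
  rw [h1] at h2
  simp_rw [cexp_sym] at h2
  rw [cf]
  have h3 : ∀ y : ι → ℝ, RCLike.re (Complex.exp (((t * ∑ j, b j * y j : ℝ) : ℂ) * Complex.I)) =
      Real.cos (t * ∑ j, b j * y j) := by
    intro y
    exact Complex.exp_ofReal_mul_I_re _
  simp_rw [h3] at h2
  rw [h2]
  rw [← Complex.ofReal_prod]
  rfl

/-- Products of numbers in the unit ball. -/
theorem abs_prod_sub_prod_le {ι : Type*} (s : Finset ι) (z w : ι → ℝ) (hz : ∀ j, |z j| ≤ 1)
    (hw : ∀ j, |w j| ≤ 1) : |∏ j ∈ s, z j - ∏ j ∈ s, w j| ≤ ∑ j ∈ s, |z j - w j| := by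
  classical
  induction s using Finset.induction_on with
  | empty => simp
  | insert a s ha ih =>
    rw [Finset.prod_insert ha, Finset.prod_insert ha, Finset.sum_insert ha]
    have hp : |∏ j ∈ s, w j| ≤ 1 := by
      rw [Finset.abs_prod]
      exact Finset.prod_le_one (fun j _ => abs_nonneg _) fun j _ => hw j
    have e : z a * ∏ j ∈ s, z j - w a * ∏ j ∈ s, w j =
        z a * (∏ j ∈ s, z j - ∏ j ∈ s, w j) + (z a - w a) * ∏ j ∈ s, w j := by ring
    rw [e]
    refine (abs_add_le _ _).trans ?_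
    rw [abs_mul, abs_mul]
    have h1 : |z a| * |∏ j ∈ s, z j - ∏ j ∈ s, w j| ≤ ∑ j ∈ s, |z j - w j| := by
      calc |z a| * |∏ j ∈ s, z j - ∏ j ∈ s, w j| ≤ 1 * |∏ j ∈ s, z j - ∏ j ∈ s, w j| :=
            mul_le_mul_of_nonneg_right (hz a) (abs_nonneg _)
        _ ≤ _ := by rw [one_mul]; exact ih
    have h2 : |z a - w a| * |∏ j ∈ s, w j| ≤ |z a - w a| :=
      mul_le_of_le_one_right (abs_nonneg _) hp
    linarith

end Vale.Agent.P249.H73
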