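import Vale.Agent.P249.H73.Sample

/-!
# P249: finite subsets of `L_p` in `ℓ_q^d`, `1 ≤ q ≤ p ≤ 2`
-/

set_option linter.all false

open MeasureTheory Set Filter Asymptotics
open scoped ENNReal Topology BigOperators

namespace Vale.Agent.P249.H73

open Vale.Agent.P249

/-- Every `n`-point subset `X` of every space `L_p(μ)` admits a map `f` into `ℓ_q^d` of distortion
at most `D`: for some `s > 0`, `s ‖x - y‖ ≤ ‖f x - f y‖ ≤ D s ‖x - y‖` for all `x, y ∈ X`. -/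
def Embeds (p q : ℝ≥0∞) [Fact (1 ≤ p)] [Fact (1 ≤ q)] (n : ℕ) (D : ℝ) (d : ℕ) : Prop :=
  ∀ (Ω : Type) [MeasurableSpace Ω] (μ : Measure Ω) (X : Finset (Lp ℝ p μ)), X.card = n →
    ∃ (f : Lp ℝ p μ → PiLp q (fun _ : Fin d => ℝ)) (s : ℝ), 0 < s ∧ ∀ x ∈ X, ∀ y ∈ X,
      s * ‖x - y‖ ≤ ‖f x - f y‖ ∧ ‖f x - f y‖ ≤ D * s * ‖x - y‖

/-- The least `d` such that every `n`-point subset of every `L_p` space admits a map into `ℓ_q^d`
with distortion at most `D`. -/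
noncomputable def embDim (p q : ℝ≥0∞) [Fact (1 ≤ p)] [Fact (1 ≤ q)] (n : ℕ) (D : ℝ) : ℕ :=
  sInf {d : ℕ | Embeds p q n D d}

theorem Embeds.mem {p q : ℝ≥0∞} [Fact (1 ≤ p)] [Fact (1 ≤ q)] {n d : ℕ} {D : ℝ}
    (h : Embeds p q n D d) : Embeds p q n D (embDim p q n D) :=
  Nat.sInf_mem (s := {d : ℕ | Embeds p q n D d}) ⟨d, h⟩

theorem Embeds.le {p q : ℝ≥0∞} [Fact (1 ≤ p)] [Fact (1 ≤ q)] {n d : ℕ} {D : ℝ}
    (h : Embeds p q n D d) : embDim p q n D ≤ d :=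
  Nat.sInf_le (s := {d : ℕ | Embeds p q n D d}) h

/-- One step: from `ℓ_p^d` to `ℓ_q^m`. -/
theorem admissible_step {p q : ℝ≥0∞} [Fact (1 ≤ p)] [Fact (1 ≤ q)] (hp2 : p ≤ 2) (hqp : q < p)
    {c : ℝ} (hc : 0 < c)
    (H : ∀ x : ℝ, 0 < x → x ≤ 1 / 4 → ∀ (V : Type) [Fintype V] (d : ℕ)
      (f : V → Fin d → ℝ) (m : ℕ), 0 < m →
      8 * ((d : ℝ) + 1) ^ 3 * Real.log (2 * (Fintype.card V : ℝ) ^ 2) / x ^ 2 ≤ m →
      ∃ G : V → Fin m → ℝ, ∀ u v,
        (1 - x) ^ 2 * (m * c * (∑ i, |f u i - f v i| ^ p.toReal) ^ (q.toReal / p.toReal)) ≤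
          ∑ k, |G u k - G v k| ^ q.toReal ∧
        ∑ k, |G u k - G v k| ^ q.toReal ≤
          (1 + x) ^ 2 * (m * c * (∑ i, |f u i - f v i| ^ p.toReal) ^ (q.toReal / p.toReal)))
    {n d m : ℕ} {ε : ℝ} (hε0 : 0 < ε) (hε1 : ε ≤ 1) (hm : 0 < m)
    (hmd : 8 * ((d : ℝ) + 1) ^ 3 * Real.log (2 * (n : ℝ) ^ 2) / (ε / 16) ^ 2 ≤ m)
    (hd : Admissible p n (1 + ε / 4) d) : Embeds p q n (1 + ε) m := by
  classical
  intro Ω _ μ X hX
  obtain ⟨f, s, hs, hf⟩ := hd Ω μ X hX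
  have hptop : p ≠ ∞ := ne_top_of_le_ne_top (by norm_num) hp2
  have hqtop : q ≠ ∞ := ne_top_of_lt (lt_of_lt_of_le hqp (le_top (a := p)))
  have hP1 := one_le_toReal_of_fact (p := p) hptop
  have hQ1 := one_le_toReal_of_fact (p := q) hqtop
  set P : ℝ := p.toReal with hP
  set Q : ℝ := q.toReal with hQ
  have hP0 : 0 < P := by linarith
  have hQ0 : 0 < Q := by linarith
  set x : ℝ := ε / 16 with hx
  have hx0 : 0 < x := by positivity
  have hx4 : x ≤ 1 / 4 := by rw [hx]; linarith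
  have hm0 : (0 : ℝ) < m := by exact_mod_cast hm
  obtain ⟨G, hG⟩ := H x hx0 hx4 {a // a ∈ X} d (fun v i => f v.1 i) m hm (by
    rw [Fintype.card_coe, hX]
    exact hmd)
  set r : ℝ := (m * c) ^ (1 / Q) with hr
  have hr0 : 0 < r := Real.rpow_pos_of_pos (by positivity) _
  have hrQ : r ^ Q = m * c := by
    rw [hr, ← Real.rpow_mul (by positivity)]
    have : 1 / Q * Q = 1 := by field_simp
    rw [this, Real.rpow_one]
  refine ⟨fun a => if h : a ∈ X then WithLp.toLp q (G ⟨a, h⟩) else 0,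
    (1 - x) ^ 2 * r * s, by
      have : 0 < 1 - x := by linarith
      positivity, fun a ha b hb => ?_⟩
  beta_reduce
  rw [dif_pos ha, dif_pos hb]
  set T : ℝ := ‖(WithLp.toLp q (G ⟨a, ha⟩) : PiLp q (fun _ : Fin m => ℝ)) -
    WithLp.toLp q (G ⟨b, hb⟩)‖ with hT
  have hT0 : 0 ≤ T := norm_nonneg _
  set R : ℝ := ‖f a - f b‖ with hR
  have hR0 : 0 ≤ R := norm_nonneg _
  have hTQ : T ^ Q = ∑ k, |G ⟨a, ha⟩ k - G ⟨b, hb⟩ k| ^ Q := by
    rw [hT, hQ, norm_rpow_eq_sum hqtop]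
    simp only [PiLp.sub_apply]
  have hRP : (∑ i, |f a i - f b i| ^ P) ^ (Q / P) = R ^ Q := by
    have h1 : ∑ i, |f a i - f b i| ^ P = R ^ P := by
      rw [hR, hP, norm_rpow_eq_sum hptop]
      simp only [PiLp.sub_apply]
    rw [h1, ← Real.rpow_mul hR0]
    congr 1
    field_simp
  obtain ⟨h1, h2⟩ := hG ⟨a, ha⟩ ⟨b, hb⟩
  rw [← hTQ, hRP, ← hrQ] at h1 h2
  have hx1 : 0 < 1 - x := by linarith
  have hrR : 0 ≤ r * R := by positivity
  have hmul : r ^ Q * R ^ Q = (r * R) ^ Q := (Real.mul_rpow hr0.le hR0).symm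
  rw [hmul] at h1 h2
  -- pass to the roots
  have hlow : (1 - x) ^ 2 * (r * R) ≤ T := by
    have h3 : ((1 - x) ^ 2 * (r * R)) ^ Q ≤ T ^ Q := by
      refine le_trans ?_ h1
      rw [Real.mul_rpow (by positivity) hrR]
      refine mul_le_mul_of_nonneg_right ?_ (by positivity)
      have h4 : (1 - x) ^ 2 ≤ 1 := pow_le_one₀ hx1.le (by linarith)
      calc ((1 - x) ^ 2) ^ Q ≤ ((1 - x) ^ 2) ^ (1 : ℝ) :=
            Real.rpow_le_rpow_of_exponent_ge (by positivity) h4 hQ1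
        _ = _ := Real.rpow_one _
    exact (Real.rpow_le_rpow_iff (by positivity) hT0 hQ0).1 h3
  have hupp : T ≤ (1 + x) ^ 2 * (r * R) := by
    have h3 : T ^ Q ≤ ((1 + x) ^ 2 * (r * R)) ^ Q := by
      refine le_trans h2 ?_
      rw [Real.mul_rpow (by positivity) hrR]
      refine mul_le_mul_of_nonneg_right ?_ (by positivity)
      have h4 : 1 ≤ (1 + x) ^ 2 := one_le_pow₀ (by linarith)
      calc (1 + x) ^ 2 = ((1 + x) ^ 2) ^ (1 : ℝ) := (Real.rpow_one _).symm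
        _ ≤ _ := Real.rpow_le_rpow_of_exponent_le h4 hQ1
    exact (Real.rpow_le_rpow_iff hT0 (by positivity) hQ0).1 h3
  obtain ⟨h5, h6⟩ := hf a ha b hb
  have hn0 : 0 ≤ ‖a - b‖ := norm_nonneg _
  constructor
  · calc (1 - x) ^ 2 * r * s * ‖a - b‖ = (1 - x) ^ 2 * (r * (s * ‖a - b‖)) := by ring
      _ ≤ (1 - x) ^ 2 * (r * R) := by
          refine mul_le_mul_of_nonneg_left (mul_le_mul_of_nonneg_left h5 hr0.le) (by positivity)
      _ ≤ T := hlow
  · refine hupp.trans ?_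
    have h7 : (1 + x) ^ 2 ≤ (1 + 8 * x) * (1 - x) ^ 2 := by
      nlinarith [mul_pos hx0 hx0, mul_nonneg hx0.le (sub_nonneg.2 hx4),
        mul_nonneg (mul_pos hx0 hx0).le (sub_nonneg.2 hx4)]
    have h8 : (1 + 8 * x) * (1 + ε / 4) ≤ 1 + ε := by
      rw [hx]
      nlinarith
    calc (1 + x) ^ 2 * (r * R) ≤ (1 + x) ^ 2 * (r * ((1 + ε / 4) * s * ‖a - b‖)) :=
          mul_le_mul_of_nonneg_left (mul_le_mul_of_nonneg_left h6 hr0.le) (by positivity)
      _ ≤ ((1 + 8 * x) * (1 - x) ^ 2) * (r * ((1 + ε / 4) * s * ‖a - b‖)) :=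
          mul_le_mul_of_nonneg_right h7 (by positivity)
      _ = ((1 + 8 * x) * (1 + ε / 4)) * ((1 - x) ^ 2 * r * s * ‖a - b‖) := by ring
      _ ≤ (1 + ε) * ((1 - x) ^ 2 * r * s * ‖a - b‖) :=
          mul_le_mul_of_nonneg_right h8 (by positivity)
      _ = _ := by ring

/-- Two exponents: the dimension bound. -/
theorem two_exponents (p q : ℝ≥0∞) [Fact (1 ≤ p)] [Fact (1 ≤ q)] (hp1 : 1 < p) (hp2 : p ≤ 2)
    (hqp : q ≤ p) (θ : ℝ) (hθ : 1 / p.toReal < θ) :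
    ∃ C : ℝ, 0 < C ∧ ∀ n : ℕ, 2 ≤ n → ∀ ε : ℝ, 0 < ε → ε ≤ 1 →
      Embeds p q n (1 + ε) (embDim p q n (1 + ε)) ∧
        (embDim p q n (1 + ε) : ℝ) ≤ Real.exp (C * Real.log n ^ θ / ε) := by
  have hptop : p ≠ ∞ := ne_top_of_le_ne_top (by norm_num) hp2
  have hP1 : 1 < p.toReal := H560.one_lt_toReal hp1 hptop
  have hP2 : p.toReal ≤ 2 := by
    have := ENNReal.toReal_mono (by norm_num) hp2
    simpa using this
  have hmax : max (1 / p.toReal) (1 / 2) < θ := by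
    refine max_lt hθ (lt_of_le_of_lt ?_ hθ)
    exact one_div_le_one_div_of_le (by linarith) hP2
  obtain ⟨C, hC, hU⟩ := H560.uniform p hp1 hptop θ hmax
  rcases eq_or_lt_of_le hqp with h | hlt
  · subst h
    exact ⟨C, hC, hU⟩
  have hqtop : q ≠ ∞ := ne_top_of_lt (lt_of_lt_of_le hlt (le_top (a := p)))
  have hQ1 := one_le_toReal_of_fact (p := q) hqtop
  have hQP : q.toReal < p.toReal := (ENNReal.toReal_lt_toReal hqtop hptop).2 hlt
  obtain ⟨c, hc, H⟩ := sample_q hQ1 hQP hP2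
  have hθ0 : 0 < θ := lt_trans (by positivity) hθ
  set A : ℝ := 12 * C + (1 / θ + 2) + Real.log 32770 with hA
  have hlogK : 0 ≤ Real.log 32770 := Real.log_nonneg (by norm_num)
  have hA0 : 0 < A := by positivity
  refine ⟨A * 3 ^ θ, by positivity, fun n hn ε hε0 hε1 => ?_⟩
  have hnr : (2 : ℝ) ≤ n := by exact_mod_cast hn
  have hn0 : (0 : ℝ) < n := by linarith
  have hlogn : Real.log 2 ≤ Real.log n := Real.log_le_log (by norm_num) hnr
  have hlog2 : (1 : ℝ) / 2 < Real.log 2 := by linarith only [Real.log_two_gt_d9]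
  have hlog21 : Real.log 2 < 1 := by linarith only [Real.log_two_lt_d9]
  set l : ℝ := 1 + Real.log n with hl
  have hl1 : 1 ≤ l := by rw [hl]; linarith
  have hl3 : l ≤ 3 * Real.log n := by rw [hl]; linarith
  have hlpos : 0 < l := by linarith
  set y : ℝ := l ^ θ / ε with hy
  have hlθ : 1 ≤ l ^ θ := Real.one_le_rpow hl1 hθ0.le
  have hy1 : 1 ≤ y := by
    rw [hy, le_div_iff₀ hε0]
    linarith
  obtain ⟨hadm, hdim⟩ := hU n hn (ε / 4) (by positivity) (by linarith)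
  set d : ℕ := dimLp p n (1 + ε / 4) with hd
  have hdy : (d : ℝ) ≤ Real.exp (4 * C * y) := by
    refine hdim.trans (Real.exp_le_exp.2 ?_)
    have h1 : Real.log n ^ θ ≤ l ^ θ :=
      Real.rpow_le_rpow (by linarith) (by rw [hl]; linarith) hθ0.le
    calc C * Real.log n ^ θ / (ε / 4) = 4 * C * (Real.log n ^ θ / ε) := by field_simp
      _ ≤ 4 * C * y := mul_le_mul_of_nonneg_left (div_le_div_of_nonneg_right h1 hε0.le)
          (by positivity)
  set M : ℝ := 8 * ((d : ℝ) + 1) ^ 3 * Real.log (2 * (n : ℝ) ^ 2) / (ε / 16) ^ 2 with hM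
  have hlog2n : Real.log (2 * (n : ℝ) ^ 2) ≤ 2 * l := by
    rw [Real.log_mul (by norm_num) (by positivity), Real.log_pow, hl]
    push_cast
    linarith
  have hlog2n0 : 0 ≤ Real.log (2 * (n : ℝ) ^ 2) := Real.log_nonneg (by nlinarith)
  have hM0 : 0 ≤ M := by positivity
  set m : ℕ := ⌈M⌉₊ + 1 with hm
  have hmpos : 0 < m := Nat.succ_pos _
  have hMm : M ≤ m := by
    rw [hm]
    push_cast
    have := Nat.le_ceil M
    linarith
  have hmM : (m : ℝ) ≤ M + 2 := by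
    rw [hm]
    push_cast
    have := Nat.ceil_lt_add_one hM0
    linarith
  have hadm2 := admissible_step hp2 hlt hc H hε0 hε1 hmpos hMm hadm
  refine ⟨hadm2.mem, ?_⟩
  have h1 : (embDim p q n (1 + ε) : ℝ) ≤ m := by exact_mod_cast hadm2.le
  refine h1.trans (hmM.trans ?_)
  -- bound of `M + 2`
  have hexp4 : 1 ≤ Real.exp (4 * C * y) := Real.one_le_exp (by positivity)
  have hd3 : ((d : ℝ) + 1) ^ 3 ≤ 8 * Real.exp (12 * C * y) := by
    have h2 : (d : ℝ) + 1 ≤ 2 * Real.exp (4 * C * y) := by linarith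
    calc ((d : ℝ) + 1) ^ 3 ≤ (2 * Real.exp (4 * C * y)) ^ 3 := by gcongr
      _ = 8 * Real.exp (4 * C * y) ^ 3 := by ring
      _ = 8 * Real.exp (12 * C * y) := by
          rw [← Real.exp_nat_mul]
          congr 2
          push_cast
          ring
  have hpoly := poly_le_exp (θ := θ) (l := l) (δ := ε) (a := 1) (c := 2) hθ0 hl1 hε0 hε1
    (by norm_num) (by norm_num)
  rw [Real.rpow_one, Real.rpow_two, ← hy] at hpoly
  have hMle : M ≤ 32768 * Real.exp ((12 * C + (1 / θ + 2)) * y) := by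
    calc M = 2048 * ((d : ℝ) + 1) ^ 3 * Real.log (2 * (n : ℝ) ^ 2) * (1 / ε) ^ 2 := by
          rw [hM]; field_simp; ring
      _ ≤ 2048 * (8 * Real.exp (12 * C * y)) * (2 * l) * (1 / ε) ^ 2 := by gcongr
      _ = 32768 * (Real.exp (12 * C * y) * (l * (1 / ε) ^ 2)) := by ring
      _ ≤ 32768 * (Real.exp (12 * C * y) * Real.exp ((1 / θ + 2) * y)) := by gcongr
      _ = _ := by rw [← Real.exp_add]; congr 2; ring
  have hone : 1 ≤ Real.exp ((12 * C + (1 / θ + 2)) * y) := Real.one_le_exp (by positivity)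
  have hK := const_le_exp (K := 32770) (y := y) (by norm_num) hy1
  calc M + 2 ≤ 32770 * Real.exp ((12 * C + (1 / θ + 2)) * y) := by linarith
    _ ≤ Real.exp (Real.log 32770 * y) * Real.exp ((12 * C + (1 / θ + 2)) * y) :=
        mul_le_mul_of_nonneg_right hK (Real.exp_pos _).le
    _ = Real.exp (A * y) := by rw [← Real.exp_add, hA]; congr 1; ring
    _ ≤ Real.exp (A * 3 ^ θ * Real.log n ^ θ / ε) := by
        refine Real.exp_le_exp.2 ?_
        have h3 : l ^ θ ≤ 3 ^ θ * Real.log n ^ θ := by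
          rw [← Real.mul_rpow (by norm_num) (by linarith)]
          exact Real.rpow_le_rpow hlpos.le hl3 hθ0.le
        calc A * y ≤ A * (3 ^ θ * Real.log n ^ θ / ε) :=
              mul_le_mul_of_nonneg_left (div_le_div_of_nonneg_right h3 hε0.le) hA0.le
          _ = _ := by ring

theorem embDim_anti {p q : ℝ≥0∞} [Fact (1 ≤ p)] [Fact (1 ≤ q)] {n : ℕ} {D D' : ℝ}
    (h : Embeds p q n D (embDim p q n D)) (hDD : D ≤ D') :
    embDim p q n D' ≤ embDim p q n D := by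
  refine Nat.sInf_le ?_
  intro Ω _ μ X hX
  obtain ⟨f, s, hs, hf⟩ := h Ω μ X hX
  exact ⟨f, s, hs, fun x hx y hy => ⟨(hf x hx y hy).1, (hf x hx y hy).2.trans
    (mul_le_mul_of_nonneg_right (mul_le_mul_of_nonneg_right hDD hs.le) (norm_nonneg _))⟩⟩

/-- In particular the dimension is `n ^ o(1)` for every fixed `D > 1`. -/
theorem subpoly_two (p q : ℝ≥0∞) [Fact (1 ≤ p)] [Fact (1 ≤ q)] (hp1 : 1 < p) (hp2 : p ≤ 2)
    (hqp : q ≤ p) (D : ℝ) (hD : 1 < D) (κ : ℝ) (hκ : 0 < κ) :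
    (fun n : ℕ => (embDim p q n D : ℝ)) =o[atTop] (fun n : ℕ => (n : ℝ) ^ κ) := by
  have hptop : p ≠ ∞ := ne_top_of_le_ne_top (by norm_num) hp2
  have hP1 : 1 < p.toReal := H560.one_lt_toReal hp1 hptop
  obtain ⟨θ, h1, h2⟩ := exists_between
    (show 1 / p.toReal < 1 by rw [div_lt_one (by linarith)]; exact hP1)
  obtain ⟨C, hC, H⟩ := two_exponents p q hp1 hp2 hqp θ h1
  set ε : ℝ := min 1 (D - 1) with hε
  have hε0 : 0 < ε := lt_min one_pos (by linarith)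
  have hε1 : ε ≤ 1 := min_le_left _ _
  have hεD : 1 + ε ≤ D := by
    have := min_le_right 1 (D - 1)
    rw [← hε] at this
    linarith
  set u : ℕ → ℝ := fun n => if n < 2 then 0 else (embDim p q n D : ℝ) with hu
  have hu0 : ∀ n, 0 ≤ u n := fun n => by
    simp only [hu]
    split_ifs
    · exact le_rfl
    · exact Nat.cast_nonneg _
  have hmain : u =o[atTop] (fun n : ℕ => (n : ℝ) ^ κ) := by
    refine isLittleO_rpow_of_subpoly (C := C / ε) h2 hu0 (fun n hn => ?_) hκ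
    simp only [hu]
    rw [if_neg (not_lt.2 hn)]
    obtain ⟨h3, h4⟩ := H n hn ε hε0 hε1
    have h5 : (embDim p q n D : ℝ) ≤ embDim p q n (1 + ε) := by exact_mod_cast embDim_anti h3 hεD
    refine h5.trans (h4.trans (le_of_eq ?_))
    congr 1
    ring
  refine hmain.congr' ?_ EventuallyEq.rfl
  filter_upwards [eventually_ge_atTop 2] with n hn
  simp only [hu]
  rw [if_neg (not_lt.2 hn)]

end Vale.Agent.P249.H73
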