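import Vale.Agent.P249.H73.Stable
import Vale.Agent.P249.H560.Main

/-!
# P249: from `ℓ_p^d` to `ℓ_q^m`, `1 ≤ q < p ≤ 2`, by sampling after a change of density
-/

set_option linter.all false

open MeasureTheory Set Filter
open scoped ENNReal Topology BigOperators

namespace Vale.Agent.P249.H73

/-- Change of density. -/
theorem change_density {Ω : Type*} [MeasurableSpace Ω] (P : Measure Ω) [IsProbabilityMeasure P]
    {w : Ω → ℝ} (hw : Measurable w) (hw0 : ∀ ω, 0 ≤ w ω) (hwi : Integrable w P) {W : ℝ}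
    (hW : W = ∫ ω, w ω ∂P) (hWpos : 0 < W) :
    IsProbabilityMeasure (P.withDensity fun ω => ENNReal.ofReal (w ω / W)) ∧
    ∀ h : Ω → ℝ, (∀ ω, w ω = 0 → h ω = 0) →
      ∫ ω, h ω * (W / w ω) ∂(P.withDensity fun ω => ENNReal.ofReal (w ω / W)) = ∫ ω, h ω ∂P := by
  have hnn : ∀ ω, 0 ≤ w ω / W := fun ω => div_nonneg (hw0 ω) hWpos.le
  constructor
  · constructor
    rw [withDensity_apply _ MeasurableSet.univ, Measure.restrict_univ,
      ← ofReal_integral_eq_lintegral_ofReal (hwi.div_const W) (Eventually.of_forall hnn),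
      integral_div, ← hW, div_self hWpos.ne', ENNReal.ofReal_one]
  · intro h hh
    have hm : Measurable fun ω => ENNReal.ofReal (w ω / W) := by fun_prop
    rw [integral_withDensity_eq_integral_toReal_smul hm
      (Eventually.of_forall fun _ => ENNReal.ofReal_lt_top)]
    refine integral_congr_ae (Eventually.of_forall fun ω => ?_)
    show (ENNReal.ofReal (w ω / W)).toReal • (h ω * (W / w ω)) = h ω
    rw [ENNReal.toReal_ofReal (hnn ω), smul_eq_mul]
    rcases eq_or_ne (w ω) 0 with h0 | h0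
    · rw [hh ω h0]; ring
    · field_simp

theorem sample_q {p q : ℝ} (hq : 1 ≤ q) (hqp : q < p) (hp : p ≤ 2) :
    ∃ c : ℝ, 0 < c ∧ ∀ x : ℝ, 0 < x → x ≤ 1 / 4 → ∀ (V : Type) [Fintype V] (d : ℕ)
      (f : V → Fin d → ℝ) (m : ℕ), 0 < m →
      8 * ((d : ℝ) + 1) ^ 3 * Real.log (2 * (Fintype.card V : ℝ) ^ 2) / x ^ 2 ≤ m →
      ∃ G : V → Fin m → ℝ, ∀ u v,
        (1 - x) ^ 2 * (m * c * (∑ i, |f u i - f v i| ^ p) ^ (q / p)) ≤
          ∑ k, |G u k - G v k| ^ q ∧
        ∑ k, |G u k - G v k| ^ q ≤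
          (1 + x) ^ 2 * (m * c * (∑ i, |f u i - f v i| ^ p) ^ (q / p)) := by
  classical
  have hq0 : 0 < q := by linarith
  have hp0 : 0 < p := by linarith
  have hq2 : q ≤ 2 := by linarith
  obtain ⟨c, hc, hst⟩ := exists_stable hq hqp hp
  refine ⟨c, hc, fun x hx hx4 V _ d f m hm0 hm => ?_⟩
  have hqp0 : 0 < q / p := by positivity
  have hm0' : (0 : ℝ) < m := by exact_mod_cast hm0
  rcases Nat.eq_zero_or_pos d with hd | hd
  · subst hd
    refine ⟨fun _ _ => 0, fun u v => ?_⟩
    simp [Real.zero_rpow hqp0.ne', Real.zero_rpow hq0.ne']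
  have hd1 : (1 : ℝ) ≤ d := by exact_mod_cast hd
  obtain ⟨Ω, hΩ, P, hP, θ, hθ, hmom⟩ := hst (c * x) (by positivity) d
  -- the weight
  set w : Ω → ℝ := fun ω => ∑ i, |θ i ω| ^ q with hw
  have hwm : Measurable w := by
    have : ∀ i, Measurable (fun ω => |θ i ω| ^ q) := fun i => by
      have := hθ i
      fun_prop
    exact Finset.measurable_sum _ fun i _ => this i
  have hw0 : ∀ ω, 0 ≤ w ω := fun ω => Finset.sum_nonneg fun i _ => by positivity
  have hsingle : ∀ i : Fin d, Integrable (fun ω => |θ i ω| ^ q) P ∧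
      |(∫ ω, |θ i ω| ^ q ∂P) - c| ≤ c * x := by
    intro i
    obtain ⟨h1, h2⟩ := hmom (Pi.single i 1)
    have e1 : ∀ ω, ∑ j, (Pi.single i 1 : Fin d → ℝ) j * θ j ω = θ i ω := by
      intro ω
      simp [Pi.single_apply]
    have e2 : ∑ j, |(Pi.single i 1 : Fin d → ℝ) j| ^ p = 1 := by
      rw [Finset.sum_eq_single i]
      · simp
      · intro j _ hj
        simp [Pi.single_apply, hj, Real.zero_rpow hp0.ne']
      · simp
    simp_rw [e1] at h1 h2
    rw [e2, Real.one_rpow, mul_one, mul_one] at h2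
    exact ⟨h1, h2⟩
  have hwi : Integrable w P := integrable_finsetSum _ fun i _ => (hsingle i).1
  set W : ℝ := ∫ ω, w ω ∂P with hW
  have hWsum : W = ∑ i, ∫ ω, |θ i ω| ^ q ∂P := by
    rw [hW]
    exact integral_finsetSum _ fun i _ => (hsingle i).1
  have hWle : W ≤ d * (c * (1 + x)) := by
    rw [hWsum]
    calc ∑ i, ∫ ω, |θ i ω| ^ q ∂P ≤ ∑ i : Fin d, c * (1 + x) :=
          Finset.sum_le_sum fun i _ => by
            have := (abs_le.1 (hsingle i).2).2
            linarith
      _ = _ := by simp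
  have hWpos : 0 < W := by
    rw [hWsum]
    have : ∑ i : Fin d, c * (1 - x) ≤ ∑ i, ∫ ω, |θ i ω| ^ q ∂P :=
      Finset.sum_le_sum fun i _ => by
        have := (abs_le.1 (hsingle i).2).1
        linarith
    refine lt_of_lt_of_le ?_ this
    simp only [Finset.sum_const, Finset.card_univ, Fintype.card_fin, nsmul_eq_mul]
    have : 0 < 1 - x := by linarith
    positivity
  obtain ⟨hP', hchange⟩ := change_density P hwm hw0 hwi hW hWpos
  -- linear combinations
  set S : V × V → Ω → ℝ := fun e ω => ∑ i, (f e.1 i - f e.2 i) * θ i ω with hS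
  have hSm : ∀ e, Measurable (S e) := fun e => by
    have : ∀ i, Measurable (fun ω => (f e.1 i - f e.2 i) * θ i ω) := fun i =>
      (hθ i).const_mul _
    exact Finset.measurable_sum _ fun i _ => this i
  set ρ : V × V → ℝ := fun e => (∑ i, |f e.1 i - f e.2 i| ^ p) ^ (q / p) with hρ
  have hρ0 : ∀ e, 0 ≤ ρ e := fun e => by positivity
  have hρpos : ∀ e : V × V, f e.1 ≠ f e.2 → 0 < ρ e := by
    intro e he
    obtain ⟨i, hi⟩ := Function.ne_iff.1 he
    have h1 : 0 < |f e.1 i - f e.2 i| ^ p :=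
      Real.rpow_pos_of_pos (abs_pos.2 (sub_ne_zero.2 hi)) _
    have h2 : |f e.1 i - f e.2 i| ^ p ≤ ∑ i, |f e.1 i - f e.2 i| ^ p :=
      Finset.single_le_sum (f := fun i => |f e.1 i - f e.2 i| ^ p) (fun _ _ => by positivity)
        (Finset.mem_univ i)
    exact Real.rpow_pos_of_pos (lt_of_lt_of_le h1 h2) _
  set I : V × V → ℝ := fun e => ∫ ω, |S e ω| ^ q ∂P with hI
  have hIb : ∀ e, c * (1 - x) * ρ e ≤ I e ∧ I e ≤ c * (1 + x) * ρ e := by
    intro e
    have h1 := abs_le.1 (hmom (fun i => f e.1 i - f e.2 i)).2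
    constructor
    · have := h1.1
      simp only [hI, hS, hρ]
      linarith
    · have := h1.2
      simp only [hI, hS, hρ]
      linarith
  have hSle : ∀ e ω, |S e ω| ^ q ≤ (d : ℝ) ^ 2 * ρ e * w ω := by
    intro e ω
    set σ : ℝ := ∑ i, |f e.1 i - f e.2 i| ^ p with hσ
    have hσ0 : 0 ≤ σ := Finset.sum_nonneg fun i _ => by positivity
    have h1 : ∀ i, |f e.1 i - f e.2 i| ≤ σ ^ (1 / p) := by
      intro i
      have h2 : |f e.1 i - f e.2 i| ^ p ≤ σ :=
        Finset.single_le_sum (f := fun i => |f e.1 i - f e.2 i| ^ p) (fun _ _ => by positivity)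
          (Finset.mem_univ i)
      calc |f e.1 i - f e.2 i| = (|f e.1 i - f e.2 i| ^ p) ^ (1 / p) := by
            rw [← Real.rpow_mul (abs_nonneg _)]
            have : p * (1 / p) = 1 := by field_simp
            rw [this, Real.rpow_one]
        _ ≤ σ ^ (1 / p) := Real.rpow_le_rpow (by positivity) h2 (by positivity)
    have h3 : ∀ i, |θ i ω| ≤ (w ω) ^ (1 / q) := by
      intro i
      have h2 : |θ i ω| ^ q ≤ w ω :=
        Finset.single_le_sum (f := fun i => |θ i ω| ^ q) (fun _ _ => by positivity)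
          (Finset.mem_univ i)
      calc |θ i ω| = (|θ i ω| ^ q) ^ (1 / q) := by
            rw [← Real.rpow_mul (abs_nonneg _)]
            have : q * (1 / q) = 1 := by field_simp
            rw [this, Real.rpow_one]
        _ ≤ (w ω) ^ (1 / q) := Real.rpow_le_rpow (by positivity) h2 (by positivity)
    have h4 : |S e ω| ≤ d * (σ ^ (1 / p) * (w ω) ^ (1 / q)) := by
      calc |S e ω| ≤ ∑ i, |(f e.1 i - f e.2 i) * θ i ω| := Finset.abs_sum_le_sum_abs _ _
        _ ≤ ∑ i : Fin d, σ ^ (1 / p) * (w ω) ^ (1 / q) := by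
            refine Finset.sum_le_sum fun i _ => ?_
            rw [abs_mul]
            exact mul_le_mul (h1 i) (h3 i) (abs_nonneg _) (by positivity)
        _ = _ := by simp
    have hwω := hw0 ω
    calc |S e ω| ^ q ≤ (d * (σ ^ (1 / p) * (w ω) ^ (1 / q))) ^ q :=
          Real.rpow_le_rpow (abs_nonneg _) h4 hq0.le
      _ = (d : ℝ) ^ q * ρ e * w ω := by
          rw [Real.mul_rpow (by positivity) (by positivity),
            Real.mul_rpow (by positivity) (by positivity), ← Real.rpow_mul hσ0,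
            ← Real.rpow_mul hwω]
          have e1 : 1 / p * q = q / p := by ring
          have e2 : 1 / q * q = 1 := by field_simp
          rw [e1, e2, Real.rpow_one, mul_assoc]
      _ ≤ (d : ℝ) ^ 2 * ρ e * w ω := by
          have h5 : (d : ℝ) ^ q ≤ (d : ℝ) ^ 2 := by
            rw [← Real.rpow_two]
            exact Real.rpow_le_rpow_of_exponent_le hd1 hq2
          have := hρ0 e
          gcongr
  have hwzero : ∀ ω, w ω = 0 → ∀ i, θ i ω = 0 := by
    intro ω h i
    have h1 := (Finset.sum_eq_zero_iff_of_nonneg (fun i _ =>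
      (show 0 ≤ |θ i ω| ^ q by positivity))).1 h i (Finset.mem_univ i)
    by_contra hne
    have : 0 < |θ i ω| ^ q := Real.rpow_pos_of_pos (abs_pos.2 hne) _
    linarith
  -- the functions to be sampled
  set g : V × V → Ω → ℝ := fun e ω =>
    if f e.1 = f e.2 then 1 else |S e ω| ^ q * (W / w ω) / I e with hg
  have hIpos : ∀ e : V × V, f e.1 ≠ f e.2 → 0 < I e := by
    intro e he
    have h1 := hρpos e he
    have h2 : 0 < 1 - x := by linarith
    exact lt_of_lt_of_le (by positivity) (hIb e).1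
  have hgm : ∀ e, AEStronglyMeasurable (g e) (P.withDensity fun ω => ENNReal.ofReal (w ω / W)) := by
    intro e
    have : Measurable (g e) := by
      simp only [hg]
      split_ifs
      · exact measurable_const
      · have h1 := hSm e
        exact ((((measurable_norm.comp h1).pow_const q)).mul (measurable_const.div hwm)).div_const _
    exact this.aestronglyMeasurable
  have hg0 : ∀ e ω, 0 ≤ g e ω := by
    intro e ω
    simp only [hg]
    split_ifs with h
    · exact zero_le_one
    · have h1 := hIpos e h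
      have h2 := hw0 ω
      positivity
  have hgK : ∀ e ω, g e ω ≤ 2 * ((d : ℝ) + 1) ^ 3 := by
    intro e ω
    simp only [hg]
    split_ifs with h
    · have : (1 : ℝ) ≤ ((d : ℝ) + 1) ^ 3 := by
        apply one_le_pow₀
        linarith
      linarith
    · have h1 := hIpos e h
      have h2 := hw0 ω
      have h3 := hρpos e h
      rw [div_le_iff₀ h1]
      rcases eq_or_lt_of_le h2 with h0 | h0
      · rw [← h0]
        simp only [div_zero, mul_zero]
        positivity
      · have h4 : |S e ω| ^ q * (W / w ω) ≤ (d : ℝ) ^ 2 * ρ e * W := by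
          calc |S e ω| ^ q * (W / w ω) ≤ ((d : ℝ) ^ 2 * ρ e * w ω) * (W / w ω) :=
                mul_le_mul_of_nonneg_right (hSle e ω) (by positivity)
            _ = _ := by field_simp
        refine h4.trans ?_
        have h5 : (d : ℝ) ^ 2 * ρ e * W ≤ (d : ℝ) ^ 2 * ρ e * (d * (c * (1 + x))) :=
          mul_le_mul_of_nonneg_left hWle (by positivity)
        refine h5.trans ?_
        have h6 : 2 * ((d : ℝ) + 1) ^ 3 * (c * (1 - x) * ρ e) ≤ 2 * ((d : ℝ) + 1) ^ 3 * I e :=
          mul_le_mul_of_nonneg_left (hIb e).1 (by positivity)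
        refine le_trans ?_ h6
        have h7 : (d : ℝ) ^ 3 ≤ ((d : ℝ) + 1) ^ 3 := by gcongr; linarith
        have h8 : 1 + x ≤ 2 * (1 - x) := by linarith
        have h9 : 0 < c * ρ e := by positivity
        calc (d : ℝ) ^ 2 * ρ e * (d * (c * (1 + x))) = (d : ℝ) ^ 3 * ((1 + x) * (c * ρ e)) := by ring
          _ ≤ ((d : ℝ) + 1) ^ 3 * ((2 * (1 - x)) * (c * ρ e)) := by
              refine mul_le_mul h7 (mul_le_mul_of_nonneg_right h8 h9.le) (by positivity)
                (by positivity)
          _ = _ := by ring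
  have hg1 : ∀ e, ∫ ω, g e ω ∂(P.withDensity fun ω => ENNReal.ofReal (w ω / W)) = 1 := by
    intro e
    by_cases h : f e.1 = f e.2
    · simp only [hg, h, if_true]
      simp
    · simp only [hg, h, if_false]
      rw [integral_div, hchange (fun ω => |S e ω| ^ q) ?_]
      · exact div_self (hIpos e h).ne'
      · intro ω h0
        have : S e ω = 0 := by
          simp only [hS]
          exact Finset.sum_eq_zero fun i _ => by rw [hwzero ω h0 i, mul_zero]
        rw [this, abs_zero, Real.zero_rpow hq0.ne']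
  have hcard : 4 * (2 * ((d : ℝ) + 1) ^ 3) * Real.log (2 * Fintype.card (V × V)) / x ^ 2 ≤ m := by
    rw [Fintype.card_prod]
    push_cast
    refine le_trans (le_of_eq ?_) hm
    have : (Fintype.card V : ℝ) * Fintype.card V = (Fintype.card V : ℝ) ^ 2 := by ring
    rw [this]
    ring
  obtain ⟨z, hz⟩ := Vale.Agent.P249.chernoff
    (P.withDensity fun ω => ENNReal.ofReal (w ω / W)) g hgm
    (K := 2 * ((d : ℝ) + 1) ^ 3) (by positivity) hg0 hgK hg1 (ε := x) hx (by linarith) m hcard
  refine ⟨fun u k => (∑ i, f u i * θ i (z k)) * (W / w (z k)) ^ (1 / q), fun u v => ?_⟩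
  have hterm : ∀ k, |(∑ i, f u i * θ i (z k)) * (W / w (z k)) ^ (1 / q) -
      (∑ i, f v i * θ i (z k)) * (W / w (z k)) ^ (1 / q)| ^ q =
      |S (u, v) (z k)| ^ q * (W / w (z k)) := by
    intro k
    have hWw : 0 ≤ W / w (z k) := div_nonneg hWpos.le (hw0 _)
    rw [← sub_mul, abs_mul, abs_of_nonneg (Real.rpow_nonneg hWw _),
      Real.mul_rpow (abs_nonneg _) (Real.rpow_nonneg hWw _), ← Real.rpow_mul hWw]
    have e2 : 1 / q * q = 1 := by field_simp
    rw [e2, Real.rpow_one]
    congr 3
    simp only [hS]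
    rw [← Finset.sum_sub_distrib]
    exact Finset.sum_congr rfl fun i _ => by ring
  simp only [hterm]
  by_cases h : f u = f v
  · have h1 : ∀ k, |S (u, v) (z k)| ^ q * (W / w (z k)) = 0 := by
      intro k
      have : S (u, v) (z k) = 0 := by
        simp only [hS]
        exact Finset.sum_eq_zero fun i _ => by rw [h]; ring
      rw [this, abs_zero, Real.zero_rpow hq0.ne', zero_mul]
    have h2 : (∑ i, |f u i - f v i| ^ p) ^ (q / p) = 0 := by
      rw [h]
      simp [Real.zero_rpow hp0.ne', Real.zero_rpow hqp0.ne']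
    simp only [h1, h2]
    simp
  · have h1 := hz (u, v)
    have hI0 := hIpos (u, v) h
    have h2 : ∑ k, g (u, v) (z k) = (∑ k, |S (u, v) (z k)| ^ q * (W / w (z k))) / I (u, v) := by
      rw [Finset.sum_div]
      exact Finset.sum_congr rfl fun k _ => if_neg h
    rw [h2] at h1
    set T := ∑ k, |S (u, v) (z k)| ^ q * (W / w (z k)) with hT
    have hρe : ρ (u, v) = (∑ i, |f u i - f v i| ^ p) ^ (q / p) := rfl
    rw [← hρe]
    have h3 := abs_le.1 h1
    have hb := hIb (u, v)
    have hr := hρpos (u, v) h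
    have h4 : (1 - x) * m * I (u, v) ≤ T := by
      have := h3.1
      have h5 : (1 - x) * m ≤ T / I (u, v) := by linarith
      exact (le_div_iff₀ hI0).1 h5
    have h5 : T ≤ (1 + x) * m * I (u, v) := by
      have := h3.2
      have h5 : T / I (u, v) ≤ (1 + x) * m := by linarith
      exact (div_le_iff₀ hI0).1 h5
    have hx1 : 0 < 1 - x := by linarith
    constructor
    · refine le_trans ?_ h4
      calc (1 - x) ^ 2 * (m * c * ρ (u, v)) = (1 - x) * m * (c * (1 - x) * ρ (u, v)) := by ring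
        _ ≤ (1 - x) * m * I (u, v) := mul_le_mul_of_nonneg_left hb.1 (by positivity)
    · refine h5.trans ?_
      calc (1 + x) * m * I (u, v) ≤ (1 + x) * m * (c * (1 + x) * ρ (u, v)) :=
            mul_le_mul_of_nonneg_left hb.2 (by positivity)
        _ = _ := by ring

end Vale.Agent.P249.H73
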