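import Vale.Agent.P249.H73.Law

/-!
# P249: almost isometric embeddings of `ℓ_p^d` into `L_q` for `1 ≤ q < p ≤ 2`
-/

set_option linter.all false

open MeasureTheory Set Filter
open scoped ENNReal Topology BigOperators

namespace Vale.Agent.P249.H73

theorem cf_close {μ : Measure ℝ} [IsProbabilityMeasure μ] {κ r C p : ℝ} (hp : 0 < p) (hpr : p < r)
    (hC : 0 ≤ C) (hκ : 0 < κ)
    (h : ∀ s : ℝ, |(∫ y, Real.cos (s * y) ∂μ) - Real.exp (-(κ * |s| ^ p))| ≤ C * |s| ^ r)
    {d N : ℕ} (hN : 0 < N) (a : Fin d → ℝ) (ha : ∑ i, |a i| ^ p = 1) (t : ℝ) (ht : 0 < t) :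
    |cf (Measure.pi fun _ : Fin d × Fin N => sym μ)
        (fun y => ∑ j : Fin d × Fin N, (a j.1 * (N : ℝ) ^ (-(1 / p))) * y j) t -
      Real.exp (-(κ * t ^ p))| ≤ C * (N : ℝ) ^ (1 - r / p) * t ^ r := by
  have hN0 : (0 : ℝ) < N := by exact_mod_cast hN
  set ν : ℝ := (N : ℝ) ^ (-(1 / p)) with hν
  have hν0 : 0 < ν := Real.rpow_pos_of_pos hN0 _
  have hpow : ∀ (e : ℝ) (i : Fin d), |t * (a i * ν)| ^ e = t ^ e * |a i| ^ e * ν ^ e := by
    intro e i
    rw [abs_mul, abs_mul, abs_of_pos ht, abs_of_pos hν0, Real.mul_rpow ht.le (by positivity),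
      Real.mul_rpow (abs_nonneg _) hν0.le]
    ring
  have hνp : ν ^ p = (N : ℝ)⁻¹ := by
    rw [hν, ← Real.rpow_mul hN0.le, ← Real.rpow_neg_one]
    congr 1
    field_simp
  have hνr : ν ^ r = (N : ℝ) ^ (-(r / p)) := by
    rw [hν, ← Real.rpow_mul hN0.le]
    congr 1
    ring
  rw [cf_pi μ (fun j : Fin d × Fin N => a j.1 * ν) t]
  have hexp : Real.exp (-(κ * t ^ p)) =
      ∏ j : Fin d × Fin N, Real.exp (-(κ * |t * (a j.1 * ν)| ^ p)) := by
    rw [← Real.exp_sum]
    congr 1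
    rw [Finset.sum_neg_distrib, ← Finset.mul_sum]
    congr 2
    rw [Fintype.sum_prod_type]
    simp_rw [hpow p, hνp]
    simp only [Finset.sum_const, Finset.card_univ, Fintype.card_fin, nsmul_eq_mul]
    have : ∀ i : Fin d, (N : ℝ) * (t ^ p * |a i| ^ p * (N : ℝ)⁻¹) = t ^ p * |a i| ^ p := by
      intro i
      field_simp
    simp_rw [this]
    rw [← Finset.mul_sum, ha, mul_one]
  rw [hexp]
  refine (abs_prod_sub_prod_le _ _ _ ?_ ?_).trans ?_
  · intro j
    have h := norm_integral_le_of_norm_le_const (μ := μ)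
      (f := fun y => Real.cos (t * (a j.1 * ν) * y)) (C := 1)
      (Eventually.of_forall fun ω => by rw [Real.norm_eq_abs]; exact Real.abs_cos_le_one _)
    simpa [Real.norm_eq_abs] using h
  · intro j
    rw [abs_of_pos (Real.exp_pos _)]
    refine Real.exp_le_one_iff.2 ?_
    have : 0 ≤ κ * |t * (a j.1 * ν)| ^ p := by positivity
    linarith
  · refine (Finset.sum_le_sum fun j _ => h (t * (a j.1 * ν))).trans ?_
    rw [← Finset.mul_sum, Fintype.sum_prod_type]
    simp_rw [hpow r, hνr]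
    simp only [Finset.sum_const, Finset.card_univ, Fintype.card_fin, nsmul_eq_mul]
    have h1 : ∀ i : Fin d, |a i| ≤ 1 := by
      intro i
      have h2 : |a i| ^ p ≤ 1 := by
        rw [← ha]
        exact Finset.single_le_sum (f := fun i => |a i| ^ p) (fun _ _ => by positivity)
          (Finset.mem_univ i)
      by_contra hcon
      push Not at hcon
      have := Real.one_lt_rpow hcon hp
      linarith
    have h2 : ∀ i : Fin d, |a i| ^ r ≤ |a i| ^ p := by
      intro i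
      rcases eq_or_lt_of_le (abs_nonneg (a i)) with h0 | h0
      · rw [← h0, Real.zero_rpow hp.ne', Real.zero_rpow (hp.trans hpr).ne']
      · exact Real.rpow_le_rpow_of_exponent_ge h0 (h1 i) hpr.le
    have h3 : (N : ℝ) ^ (1 - r / p) = N * (N : ℝ) ^ (-(r / p)) := by
      rw [sub_eq_add_neg, Real.rpow_add hN0, Real.rpow_one]
    rw [h3, mul_assoc C]
    refine mul_le_mul_of_nonneg_left ?_ hC
    calc ∑ i : Fin d, (N : ℝ) * (t ^ r * |a i| ^ r * (N : ℝ) ^ (-(r / p)))
        = (N : ℝ) * (N : ℝ) ^ (-(r / p)) * t ^ r * ∑ i : Fin d, |a i| ^ r := by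
          rw [Finset.mul_sum]
          exact Finset.sum_congr rfl fun i _ => by ring
      _ ≤ (N : ℝ) * (N : ℝ) ^ (-(r / p)) * t ^ r * 1 := by
          refine mul_le_mul_of_nonneg_left ?_ (by positivity)
          rw [← ha]
          exact Finset.sum_le_sum fun i _ => h2 i
      _ = _ := by ring

theorem exists_stable {p q : ℝ} (hq : 1 ≤ q) (hqp : q < p) (hp : p ≤ 2) :
    ∃ c : ℝ, 0 < c ∧ ∀ η : ℝ, 0 < η → ∀ d : ℕ,
      ∃ (Ω : Type) (_ : MeasurableSpace Ω) (P : Measure Ω) (_ : IsProbabilityMeasure P)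
        (θ : Fin d → Ω → ℝ), (∀ i, Measurable (θ i)) ∧ ∀ a : Fin d → ℝ,
          Integrable (fun ω => |∑ i, a i * θ i ω| ^ q) P ∧
          |(∫ ω, |∑ i, a i * θ i ω| ^ q ∂P) - c * (∑ i, |a i| ^ p) ^ (q / p)| ≤
            η * (∑ i, |a i| ^ p) ^ (q / p) := by
  have hq0 : 0 < q := by linarith
  have hp0 : 0 < p := by linarith
  have hq2 : q < 2 := by linarith
  obtain ⟨μ, hμ, κ, r, C, hκ, hpr, hC, hφ⟩ := stableLike (p := p) (by linarith) hp
  have hK := Kr_pos hq0 hq2
  have hJ := Jr_pos hκ hq0 hqp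
  refine ⟨Jr κ p q / Kr q, by positivity, fun η hη d => ?_⟩
  -- choose the number of copies
  set B : ℕ → ℝ := fun n => C * ((n : ℝ) + 1) ^ (1 - r / p) with hB
  have hneg : 1 - r / p < 0 := by
    have : 1 < r / p := (one_lt_div hp0).2 hpr
    linarith
  have hB0 : ∀ n, 0 ≤ B n := fun n => by simp only [hB]; positivity
  have hB1 : ∀ n, B n ≤ B 0 := fun n => by
    simp only [hB]
    refine mul_le_mul_of_nonneg_left ?_ hC
    have h0 : (0 : ℝ) ≤ n := Nat.cast_nonneg n
    refine Real.rpow_le_rpow_of_nonpos (by norm_num) (by push_cast; linarith) hneg.le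
  have hBt : Tendsto B atTop (𝓝 0) := by
    have h1 : Tendsto (fun n : ℕ => ((n : ℝ) + 1)) atTop atTop :=
      tendsto_atTop_add_const_right _ _ tendsto_natCast_atTop_atTop
    have h2 : Tendsto (fun x : ℝ => x ^ (-(r / p - 1))) atTop (𝓝 0) :=
      tendsto_rpow_neg_atTop (by linarith)
    have h3 := (h2.comp h1).const_mul C
    rw [mul_zero] at h3
    refine h3.congr fun n => ?_
    simp only [hB, Function.comp]
    congr 2
    ring
  have hlim := tendsto_min_integral (r := r) hq0 (hqp.trans hpr) hB0 hB1 hBt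
  obtain ⟨n, hn⟩ := (hlim.eventually_lt_const (show 0 < η * Kr q by positivity)).exists
  set N : ℕ := n + 1 with hNdef
  have hN : 0 < N := Nat.succ_pos n
  have hN0 : (0 : ℝ) < N := by exact_mod_cast hN
  set ν : ℝ := (N : ℝ) ^ (-(1 / p)) with hν
  refine ⟨Fin d × Fin N → ℝ, inferInstance, Measure.pi fun _ : Fin d × Fin N => sym μ,
    inferInstance, fun i y => ∑ k, ν * y (i, k), fun i => by fun_prop, ?_⟩
  have hsum : ∀ (a : Fin d → ℝ) (y : Fin d × Fin N → ℝ),
      ∑ i, a i * ∑ k, ν * y (i, k) = ∑ j : Fin d × Fin N, (a j.1 * ν) * y j := by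
    intro a y
    rw [Fintype.sum_prod_type]
    refine Finset.sum_congr rfl fun i _ => ?_
    rw [Finset.mul_sum]
    exact Finset.sum_congr rfl fun k _ => by ring
  -- unit vectors
  have hunit : ∀ a : Fin d → ℝ, ∑ i, |a i| ^ p = 1 →
      Integrable (fun y : Fin d × Fin N → ℝ => |∑ i, a i * ∑ k, ν * y (i, k)| ^ q)
        (Measure.pi fun _ : Fin d × Fin N => sym μ) ∧
      |(∫ y : Fin d × Fin N → ℝ, |∑ i, a i * ∑ k, ν * y (i, k)| ^ q
        ∂(Measure.pi fun _ : Fin d × Fin N => sym μ)) - Jr κ p q / Kr q| ≤ η := by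
    intro a ha
    simp_rw [hsum a]
    have hS : Measurable (fun y : Fin d × Fin N → ℝ =>
        ∑ j : Fin d × Fin N, (a j.1 * ν) * y j) := by fun_prop
    have hBn : B n = C * (N : ℝ) ^ (1 - r / p) := by
      simp only [hB, hNdef]
      push_cast
      rfl
    obtain ⟨h1, h2⟩ := moment_close (Measure.pi fun _ : Fin d × Fin N => sym μ) hS hκ hq0 hq2 hqp
      (hqp.trans hpr) (hB0 n) (fun t ht => by
        rw [hBn]
        exact cf_close hp0 hpr hC hκ hφ hN a ha t ht)
    refine ⟨h1, ?_⟩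
    have h3 := h2.trans hn.le
    set M := ∫ y : Fin d × Fin N → ℝ, |∑ j : Fin d × Fin N, (a j.1 * ν) * y j| ^ q
        ∂(Measure.pi fun _ : Fin d × Fin N => sym μ) with hM
    have h4 : M - Jr κ p q / Kr q = (M * Kr q - Jr κ p q) / Kr q := by
      field_simp
    rw [h4, abs_div, abs_of_pos hK, div_le_iff₀ hK]
    exact h3
  intro a
  set s : ℝ := ∑ i, |a i| ^ p with hs
  have hs0 : 0 ≤ s := Finset.sum_nonneg fun i _ => by positivity
  rcases eq_or_lt_of_le hs0 with h0 | h0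
  · have hz : ∀ i, a i = 0 := by
      intro i
      have h1 := (Finset.sum_eq_zero_iff_of_nonneg (fun i _ =>
        (show 0 ≤ |a i| ^ p by positivity))).1 h0.symm i (Finset.mem_univ i)
      by_contra hne
      have : 0 < |a i| ^ p := Real.rpow_pos_of_pos (abs_pos.2 hne) _
      linarith
    have hz2 : ∀ y : Fin d × Fin N → ℝ, |∑ i, a i * ∑ k, ν * y (i, k)| ^ q = 0 := by
      intro y
      simp [hz, Real.zero_rpow hq0.ne']
    simp_rw [hz2]
    rw [← h0, Real.zero_rpow (by positivity)]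
    simp
  · set ρ : ℝ := s ^ (1 / p) with hρ
    have hρ0 : 0 < ρ := Real.rpow_pos_of_pos h0 _
    have hρp : ρ ^ p = s := by
      rw [hρ, ← Real.rpow_mul hs0]
      have : 1 / p * p = 1 := by field_simp
      rw [this, Real.rpow_one]
    have hρq : s ^ (q / p) = ρ ^ q := by
      rw [hρ, ← Real.rpow_mul hs0]
      congr 1
      ring
    obtain ⟨h1, h2⟩ := hunit (fun i => a i / ρ) (by
      have : ∀ i, |a i / ρ| ^ p = |a i| ^ p / s := by
        intro i
        rw [abs_div, abs_of_pos hρ0, Real.div_rpow (abs_nonneg _) hρ0.le, hρp]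
      simp_rw [this]
      rw [← Finset.sum_div, ← hs, div_self h0.ne'])
    have h3 : ∀ y : Fin d × Fin N → ℝ, |∑ i, a i * ∑ k, ν * y (i, k)| ^ q =
        ρ ^ q * |∑ i, a i / ρ * ∑ k, ν * y (i, k)| ^ q := by
      intro y
      rw [← Real.mul_rpow hρ0.le (abs_nonneg _)]
      congr 1
      have e : ρ * |∑ i, a i / ρ * ∑ k, ν * y (i, k)| =
          |ρ * ∑ i, a i / ρ * ∑ k, ν * y (i, k)| := by
        rw [abs_mul, abs_of_pos hρ0]
      rw [e, Finset.mul_sum]
      congr 1
      refine Finset.sum_congr rfl fun i _ => ?_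
      field_simp
    simp_rw [h3]
    refine ⟨h1.const_mul _, ?_⟩
    rw [integral_const_mul, hρq]
    have h5 : ∀ x y : ℝ, ρ ^ q * x - y * ρ ^ q = (x - y) * ρ ^ q := fun x y => by ring
    rw [h5, abs_mul, abs_of_pos (Real.rpow_pos_of_pos hρ0 q)]
    exact mul_le_mul_of_nonneg_right h2 (by positivity)

end Vale.Agent.P249.H73
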